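import Vale.Agent.P043.Aperiodic.Defs

/-! The clock equation on the gadget. -/

namespace Vale.Agent.P043.Aperiodic

variable {n : ℕ} (p : Fin n → ℕ) [∀ i, NeZero (p i)]

/-- The cells of both tiles of the clock equation, tagged with their tile. -/
def clockCand : List (Gad × Bool) :=
  [((0, 0), false), ((1, 0), false), ((1, 2), false), ((2, 0), false),
    ((0, 0), true), ((0, 1), true), ((0, 3), true), ((2, 0), true)]

/-- The tagged cells landing in their pair from `g`. -/
def clockHits (z z' : Gad × Gad) (g : Gad) : List (Gad × Bool) :=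
  clockCand.filter fun c => decide (g - c.1 = (if c.2 then z' else z).1) ||
    decide (g - c.1 = (if c.2 then z' else z).2)

/-- The clock equation on the gadget. -/
def gadTiles (z z' : Gad × Gad) : Bool :=
  decide (∀ g : Gad, (clockHits z z' g).length = 1)

/-- Flipping, checked over all pairs. -/
lemma gad_flip : ∀ a₁ : Gad, evenG a₁ = true → ∀ a₂ : Gad, evenG a₂ = false →
    ∀ c₁ : Gad, evenG c₁ = true → ∀ c₂ : Gad, evenG c₂ = false →
    gadTiles (a₁, a₂) (c₁, c₂) = true →
      oddD (a₁, a₂) ∧ oddD (c₁, c₂) ∧ beta (c₁, c₂) = !beta (a₁, a₂) := by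
  unfold oddD
  decide +kernel

lemma gad_sol : ∀ t : ZMod 4, gadTiles (clockSol t) (clockSol (t + 1)) = true := by
  decide +kernel

lemma clockCand_nodup : clockCand.Nodup := by decide

lemma mem_clockCand : ∀ c : Gad × Bool, c ∈ clockCand ↔
    ((c.2 = false ∧ c.1 ∈ clockE) ∨ (c.2 = true ∧ c.1 ∈ clockE')) := by
  decide +kernel

lemma mem_clockHits {z z' : Gad × Gad} {g : Gad} {c : Gad × Bool} :
    c ∈ clockHits z z' g ↔
      (c.2 = false ∧ c.1 ∈ clockE ∧ (g - c.1 = z.1 ∨ g - c.1 = z.2)) ∨
      (c.2 = true ∧ c.1 ∈ clockE' ∧ (g - c.1 = z'.1 ∨ g - c.1 = z'.2)) := by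
  obtain ⟨e, β⟩ := c
  cases β <;> simp [clockHits, mem_clockCand]

lemma mem_extend {E : Finset Gad} {h : Hgrp p} : h ∈ extend p E ↔ h.1 ∈ E ∧ h.2.1 = 0 := by
  simp [extend]

/-- A solution of the clock equation on `x`, read on the gadget. -/
lemma clock_cond_iff {z z' : Gad × Gad} {b b' : Col p} {σ σ' : Fin n → Bool}
    (x : Hgrp p) (f : Hgrp p × Bool) :
    ((f.2 = false ∧ f.1 ∈ extend p clockE ∧ x - f.1 ∈ slice z b σ) ∨
      (f.2 = true ∧ f.1 ∈ extend p clockE' ∧ x - f.1 ∈ slice z' b' σ')) ↔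
    (f.1.1, f.2) ∈ clockHits z z' x.1 ∧ f.1.2.1 = 0 ∧
      f.1.2.2 = fun i => x.2.2 i - ((if f.2 then b' else b) i +
        if (if f.2 then σ' else σ) i then x.2.1 i else 0) := by
  obtain ⟨⟨e, k, y⟩, β⟩ := f
  have hline : ∀ (b₀ : Col p) (σ₀ : Fin n → Bool),
      (∀ i, x.2.2 i - y i = b₀ i + if σ₀ i then x.2.1 i else 0) ↔
      y = fun i => x.2.2 i - (b₀ i + if σ₀ i then x.2.1 i else 0) := by
    intro b₀ σ₀
    constructor
    · intro h
      funext i
      rw [← h i]
      exact (sub_sub_cancel _ _).symm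
    · intro h i
      rw [h]
      exact sub_sub_cancel _ _
  constructor
  · rintro (⟨hβ, he, hs⟩ | ⟨hβ, he, hs⟩)
    all_goals
      simp only [slice, Set.mem_ofPred_eq, Prod.fst_sub, Prod.snd_sub, Pi.sub_apply] at hs
      rw [mem_extend] at he
      obtain ⟨he1, rfl⟩ := he
      simp only at hβ he1 hs
      subst hβ
      simp only [Pi.zero_apply, sub_zero] at hs
      refine ⟨?_, rfl, ?_⟩
      · rw [mem_clockHits]
        simp [he1, hs.1]
      · simpa using (hline _ _).1 hs.2
  · rintro ⟨hh, hk, hy⟩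
    dsimp only at hh hk hy
    subst hk
    rw [mem_clockHits] at hh
    rcases hh with ⟨hβ, he, hs⟩ | ⟨hβ, he, hs⟩
    all_goals
      dsimp only at hβ he hs
      subst hβ
    · refine Or.inl ⟨rfl, (mem_extend p).2 ⟨he, rfl⟩, hs, fun i => ?_⟩
      simp only [Prod.snd_sub, Prod.fst_sub, Pi.sub_apply, Pi.zero_apply, sub_zero]
      exact (hline b σ).2 (by simpa using hy) i
    · refine Or.inr ⟨rfl, (mem_extend p).2 ⟨he, rfl⟩, hs, fun i => ?_⟩
      simp only [Prod.snd_sub, Prod.fst_sub, Pi.sub_apply, Pi.zero_apply, sub_zero]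
      exact (hline b' σ').2 (by simpa using hy) i

lemma tiling2_iff_gadTiles {z z' : Gad × Gad} {b b' : Col p} {σ σ' : Fin n → Bool} :
    Tiling2 (extend p clockE) (extend p clockE') (slice z b σ) (slice z' b' σ') ↔
      gadTiles z z' = true := by
  rw [gadTiles, decide_eq_true_eq]
  constructor
  · intro h g
    obtain ⟨f, hf, hu⟩ := h (g, 0, 0)
    have hf' := (clock_cond_iff p _ f).1 hf
    have hall : ∀ c ∈ clockHits z z' g, c = (f.1.1, f.2) := by
      intro c hc
      have := hu (((c.1, 0, fun i => (0 : Col p) i - ((if c.2 then b' else b) i +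
        if (if c.2 then σ' else σ) i then (0 : Col p) i else 0)) : Hgrp p), c.2)
        ((clock_cond_iff p (g, 0, 0) _).2 ⟨hc, rfl, rfl⟩)
      rw [← this]
    have hnd : (clockHits z z' g).Nodup := clockCand_nodup.filter _
    have hmem : (f.1.1, f.2) ∈ clockHits z z' g := hf'.1
    rcases hL : clockHits z z' g with _ | ⟨a, _ | ⟨a', l⟩⟩
    · rw [hL] at hmem; simp at hmem
    · rfl
    · rw [hL] at hall hnd
      exact absurd ((hall a (by simp)).trans (hall a' (by simp)).symm)
        (List.ne_of_not_mem_cons (by simpa using (List.nodup_cons.1 hnd).1))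
  · intro h x
    obtain ⟨c, hc⟩ := List.length_eq_one_iff.1 (h x.1)
    refine ⟨((c.1, 0, fun i => x.2.2 i - ((if c.2 then b' else b) i +
        if (if c.2 then σ' else σ) i then x.2.1 i else 0)), c.2),
      (clock_cond_iff p x _).2 ⟨by rw [hc]; simp, rfl, rfl⟩, ?_⟩
    intro f hf
    obtain ⟨hh, hk, hy⟩ := (clock_cond_iff p x f).1 hf
    rw [hc, List.mem_singleton] at hh
    subst hh
    exact Prod.ext (Prod.ext rfl (Prod.ext hk hy)) rfl

lemma extend_eq_product (E : Finset Gad) :
    extend p E = E ×ˢ (({0} : Finset (Col p)) ×ˢ (Finset.univ : Finset (Col p))) := by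
  ext h
  simp only [mem_extend, Finset.mem_product, Finset.mem_singleton, Finset.mem_univ, and_true]

theorem clock_card :
    (extend p clockE).card + (extend p clockE').card = (baseTile p).card := by
  have hb : baseTile p = (Finset.univ.filter fun g : Gad => evenG g = true) ×ˢ
      (({0} : Finset (Col p)) ×ˢ (Finset.univ : Finset (Col p))) := by
    ext h
    simp only [baseTile, Finset.mem_filter, Finset.mem_product, Finset.mem_singleton,
      Finset.mem_univ, true_and, and_true]
  rw [extend_eq_product, extend_eq_product, hb]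
  simp only [Finset.card_product, Finset.card_singleton, one_mul]
  have h8 : (Finset.univ.filter fun g : Gad => evenG g = true).card = 8 := by decide
  have h4 : clockE.card = 4 ∧ clockE'.card = 4 := by decide
  rw [h8, h4.1, h4.2]
  ring

/-- The clock equation flips the clock bit. -/
theorem clock_flip {z z' : Gad × Gad} {b b' : Col p} {σ σ' : Fin n → Bool}
    (hz : Good z) (hz' : Good z')
    (h : Tiling2 (extend p clockE) (extend p clockE') (slice z b σ) (slice z' b' σ')) :
    oddD z ∧ oddD z' ∧ beta z' = !beta z :=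
  gad_flip z.1 hz.1 z.2 hz.2 z'.1 hz'.1 z'.2 hz'.2 ((tiling2_iff_gadTiles p).1 h)

/-- `clockSol` solves the clock equation. -/
theorem clock_sol (t : ZMod 4) (b b' : Col p) (σ σ' : Fin n → Bool) :
    Good (clockSol t) ∧ oddD (clockSol t) ∧ (beta (clockSol t) = decide (t = 1 ∨ t = 3)) ∧
      Tiling2 (extend p clockE) (extend p clockE') (slice (clockSol t) b σ)
        (slice (clockSol (t + 1)) b' σ') := by
  have h : ∀ t : ZMod 4, evenG (clockSol t).1 = true ∧ evenG (clockSol t).2 = false ∧
      ((clockSol t).2.2 - (clockSol t).1.2 = 1 ∨ (clockSol t).2.2 - (clockSol t).1.2 = 3) ∧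
      beta (clockSol t) = decide (t = 1 ∨ t = 3) := by decide
  exact ⟨⟨(h t).1, (h t).2.1⟩, (h t).2.2.1, (h t).2.2.2,
    (tiling2_iff_gadTiles p).2 (gad_sol t)⟩

end Vale.Agent.P043.Aperiodic
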