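import Vale.Agent.P043.Defs

/-! Definitions for the aperiodic monotile of `ℤ⁴`.

The finite group is `H = (ℤ/4)² × ∏ ℤ/pᵢ × ∏ ℤ/pᵢ`, a slice is the set of cells
`(g, k, b + σ k)` with `g` in a pair of cells of `(ℤ/4)²` of opposite first-coordinate parity. -/

namespace Vale.Agent.P043.Aperiodic

/-- `A ⊕ F` is the whole group. -/
def Tiling {G : Type*} [AddCommGroup G] (F : Finset G) (A : Set G) : Prop :=
  ∀ x : G, ∃! f : G, f ∈ F ∧ x - f ∈ A

/-- `(A ⊕ E) ⊔ (B ⊕ E')` is the whole group. -/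
def Tiling2 {G : Type*} [AddCommGroup G] (E E' : Finset G) (A B : Set G) : Prop :=
  ∀ x : G, ∃! f : G × Bool,
    (f.2 = false ∧ f.1 ∈ E ∧ x - f.1 ∈ A) ∨ (f.2 = true ∧ f.1 ∈ E' ∧ x - f.1 ∈ B)

/-- The gadget group. -/
abbrev Gad : Type := ZMod 4 × ZMod 4

/-- A column: one residue modulo each `p i`. -/
abbrev Col {n : ℕ} (p : Fin n → ℕ) : Type := (i : Fin n) → ZMod (p i)

/-- The finite group: gadget, index column, value column. -/
abbrev Hgrp {n : ℕ} (p : Fin n → ℕ) : Type := Gad × Col p × Col p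

/-- Even first gadget coordinate. -/
def evenG (g : Gad) : Bool := decide (g.1 = 0 ∨ g.1 = 2)

/-- A pair of gadget cells, one of each parity. -/
def Good (z : Gad × Gad) : Prop := evenG z.1 = true ∧ evenG z.2 = false

/-- The pair differs by an odd amount in the second coordinate. -/
def oddD (z : Gad × Gad) : Prop := (z.2.2 - z.1.2) = 1 ∨ (z.2.2 - z.1.2) = 3

/-- The clock bit of a pair: `false` for differences `±(1,1)`, `true` for `±(1,3)`. -/
def beta (z : Gad × Gad) : Bool := decide (z.2.2 - z.1.2 ≠ z.2.1 - z.1.1)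

/-- A slice: a pair of gadget cells times, for each `i`, a line of slope `0` or `1`. -/
def slice {n : ℕ} {p : Fin n → ℕ} (z : Gad × Gad) (b : Col p) (σ : Fin n → Bool) :
    Set (Hgrp p) :=
  {h | (h.1 = z.1 ∨ h.1 = z.2) ∧ ∀ i, h.2.2 i = b i + if σ i then h.2.1 i else 0}

/-- The column tile: even gadget cells, index `0`, any value. -/
def baseTile {n : ℕ} (p : Fin n → ℕ) [∀ i, NeZero (p i)] : Finset (Hgrp p) :=
  Finset.univ.filter fun h => evenG h.1 = true ∧ h.2.1 = 0

/-- First tile of the clock equation on the gadget. -/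
def clockE : Finset Gad := {(0, 0), (1, 0), (1, 2), (2, 0)}

/-- Second tile of the clock equation on the gadget. -/
def clockE' : Finset Gad := {(0, 0), (0, 1), (0, 3), (2, 0)}

/-- Extend a gadget set by index `0` and every value. -/
def extend {n : ℕ} (p : Fin n → ℕ) [∀ i, NeZero (p i)] (E : Finset Gad) : Finset (Hgrp p) :=
  Finset.univ.filter fun h => h.1 ∈ E ∧ h.2.1 = 0

/-- A period-four solution of the clock equation. -/
def clockSol : ZMod 4 → Gad × Gad :=
  ![((0, 0), (1, 1)), ((0, 2), (3, 3)), ((2, 0), (3, 1)), ((2, 2), (1, 3))]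

/-- The last nonzero digit in base `8`, and `1` at `0`. -/
def lastDigit (m : ℤ) : ZMod 8 :=
  if h : m = 0 then 1 else if (8 : ℤ) ∣ m then lastDigit (m / 8) else (m : ZMod 8)
termination_by m.natAbs
decreasing_by omega

/-- The tuples allowed along a line: scaled last digits of an arithmetic progression. -/
def LineRel (f : Fin 64 → ZMod 8) : Prop :=
  ∃ μ : ZMod 8, IsUnit μ ∧ ∃ a b : ℤ, ∀ n, f n = μ * lastDigit (a * (n : ℕ) + b)

end Vale.Agent.P043.Aperiodic
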