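import Vale.Agent.P043.Defs

/-! From an aperiodic tile of `ℤ^d` to an aperiodic measurable tile of `ℝ^d`.

Each lattice point becomes a translate of a bumpy cube `bump`: the unit cube with a small box cut
out of each face `x_a = 0` and glued on the face `x_a = 1`. The bumpy cube tiles `ℝ^d` only by
cosets of `ℤ^d`. -/

open MeasureTheory Set

namespace Vale.Agent.P043.Aperiodic

/-- Translates of `Ω` by `A` cover up to a null set and pairwise meet in null sets. -/
def RTiles {d : ℕ} (Ω : Set (Fin d → ℝ)) (A : Set (Fin d → ℝ)) : Prop :=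
  (∀ᵐ x ∂(volume : Measure (Fin d → ℝ)), ∃ a ∈ A, x - a ∈ Ω) ∧
    A.Pairwise fun a b => volume ({x | x - a ∈ Ω} ∩ {x | x - b ∈ Ω}) = 0

/-- `A` is invariant under a lattice of rank `d`: under `d` linearly independent vectors. -/
def RPeriodic {d : ℕ} (A : Set (Fin d → ℝ)) : Prop :=
  ∃ v : Fin d → (Fin d → ℝ), LinearIndependent ℝ v ∧ ∀ i a, a + v i ∈ A ↔ a ∈ A

namespace Euclid

variable {d : ℕ}

/-- A lattice point as a real vector. -/
def toReal (z : Grid d) : Fin d → ℝ := fun l => (z l : ℝ)

/-- The axisVec vector in direction `a`. -/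
def axisVec (a : Fin d) : Fin d → ℝ := fun l => if l = a then 1 else 0

/-- Lower end of the dent of direction `a`. -/
noncomputable def lo (a l : Fin d) : ℝ := if l = a then 0 else 2 / 5

/-- The dent of direction `a`. -/
def dent (a : Fin d) : Set (Fin d → ℝ) := {y | ∀ l, lo a l ≤ y l ∧ y l < lo a l + 1 / 5}

/-- The half-open unit cube. -/
def cube : Set (Fin d → ℝ) := {y | ∀ l, 0 ≤ y l ∧ y l < 1}

/-- The bumpy cube. -/
def bump : Set (Fin d → ℝ) :=
  (cube \ ⋃ a, dent a) ∪ ⋃ a, {x | x - axisVec a ∈ dent a}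

lemma lo_nonneg (a l : Fin d) : 0 ≤ lo a l := by unfold lo; split_ifs <;> norm_num

lemma lo_le (a l : Fin d) : lo a l ≤ 2 / 5 := by unfold lo; split_ifs <;> norm_num

lemma dent_subset_cube {a : Fin d} {y : Fin d → ℝ} (h : y ∈ dent a) : y ∈ cube := fun l => by
  have := h l; have := lo_nonneg a l; have := lo_le a l
  constructor <;> linarith

lemma dent_inj {a b : Fin d} {y : Fin d → ℝ} (ha : y ∈ dent a) (hb : y ∈ dent b) : a = b := by
  by_contra h
  have h1 := (ha a).2
  have h2 := (hb a).1
  simp only [lo, if_pos, if_neg h] at h1 h2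
  linarith

lemma measurableSet_bump : MeasurableSet (bump : Set (Fin d → ℝ)) := by
  have hc : (cube : Set (Fin d → ℝ)) = univ.pi fun _ => Ico 0 1 := by ext y; simp [cube]
  have hd : ∀ a : Fin d, dent a = univ.pi fun l => Ico (lo a l) (lo a l + 1 / 5) := fun a => by
    ext y; simp [dent]
  have hdm : ∀ a : Fin d, MeasurableSet (dent a) := fun a => by
    rw [hd a]; exact MeasurableSet.univ_pi fun _ => measurableSet_Ico
  have hsh : ∀ a : Fin d, Measurable fun x : Fin d → ℝ => x - axisVec a := fun a => by fun_prop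
  exact MeasurableSet.union
    ((hc ▸ MeasurableSet.univ_pi fun _ => measurableSet_Ico).diff (MeasurableSet.iUnion hdm))
    (MeasurableSet.iUnion fun a => hsh a (hdm a))

lemma bump_bounded {x : Fin d → ℝ} (h : x ∈ bump) : ∀ l, 0 ≤ x l ∧ x l ≤ 2 := by
  intro l
  rcases h with h | h
  · exact ⟨(h.1 l).1, by linarith [(h.1 l).2]⟩
  · obtain ⟨a, ha⟩ := mem_iUnion.1 h
    have := dent_subset_cube ha l
    simp only [Pi.sub_apply, axisVec] at this
    split_ifs at this <;> constructor <;> linarith

lemma floor_eq_zero_of_cube {y : Fin d → ℝ} (h : y ∈ cube) (l : Fin d) : ⌊y l⌋ = 0 :=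
  Int.floor_eq_zero_iff.2 ⟨(h l).1, (h l).2⟩

/-- Two points of the bumpy cube differing by a lattice vector are equal. -/
lemma eq_zero_of_bump {x : Fin d → ℝ} {w : Grid d} (h : x ∈ bump)
    (h' : x + toReal w ∈ bump) : w = 0 := by
  -- the fractional part and the floor of a point of the bumpy cube
  have key : ∀ z ∈ (bump : Set (Fin d → ℝ)),
      ((fun l => Int.fract (z l)) ∉ ⋃ a, dent a ∧ (fun l => ⌊z l⌋) = (0 : Grid d)) ∨
      ∃ a, (fun l => Int.fract (z l)) ∈ dent a ∧
        (fun l => ⌊z l⌋) = (Pi.single a 1 : Grid d) := by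
    intro z hz
    rcases hz with ⟨hc, hd⟩ | hz
    · refine Or.inl ⟨?_, funext (floor_eq_zero_of_cube hc)⟩
      have : (fun l => Int.fract (z l)) = z :=
        funext fun l => Int.fract_eq_self.2 (hc l)
      rwa [this]
    · obtain ⟨a, ha⟩ := mem_iUnion.1 hz
      have hfl : ∀ l, ⌊z l⌋ = (Pi.single a 1 : Grid d) l := fun l => by
        have hc := dent_subset_cube ha l
        simp only [Pi.sub_apply, axisVec] at hc
        rw [Int.floor_eq_iff]
        rcases eq_or_ne l a with rfl | hla
        · simp only [if_pos, Pi.single_eq_same] at hc ⊢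
          push_cast; constructor <;> linarith
        · simp only [if_neg hla, Pi.single_eq_of_ne hla] at hc ⊢
          push_cast; constructor <;> linarith
      refine Or.inr ⟨a, ?_, funext hfl⟩
      have : (fun l => Int.fract (z l)) = z - axisVec a := funext fun l => by
        rw [Int.fract, hfl l]
        simp only [Pi.sub_apply, axisVec, Pi.single_apply]
        split_ifs <;> simp
      rwa [this]
  have hf : (fun l => Int.fract ((x + toReal w) l)) = fun l => Int.fract (x l) :=
    funext fun l => Int.fract_add_intCast (x l) (w l)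
  have hw : ∀ l, w l = ⌊(x + toReal w) l⌋ - ⌊x l⌋ := fun l => by
    simp only [Pi.add_apply, toReal, Int.floor_add_intCast]; ring
  funext l
  rw [hw l]
  rcases key x h with ⟨n1, e1⟩ | ⟨a, d1, e1⟩ <;> rcases key _ h' with ⟨n2, e2⟩ | ⟨b, d2, e2⟩
  · rw [congrFun e1 l, congrFun e2 l]; simp
  · exact absurd (mem_iUnion.2 ⟨b, hf ▸ d2⟩) n1
  · exact absurd (hf.symm ▸ mem_iUnion.2 ⟨a, d1⟩) n2
  · obtain rfl := dent_inj d1 (hf ▸ d2)
    rw [congrFun e1 l, congrFun e2 l]; simp

/-- Every point is a lattice translate of a point of the bumpy cube. -/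
lemma exists_bump (x : Fin d → ℝ) : ∃ z : Grid d, x - toReal z ∈ bump := by
  set q : Grid d := fun l => ⌊x l⌋
  have hc : x - toReal q ∈ cube := fun l => by
    simp only [Pi.sub_apply, toReal, q]
    constructor <;> linarith [Int.floor_le (x l), Int.lt_floor_add_one (x l)]
  by_cases hd : x - toReal q ∈ ⋃ a, dent a
  · obtain ⟨a, ha⟩ := mem_iUnion.1 hd
    refine ⟨q - Pi.single a 1, Or.inr (mem_iUnion.2 ⟨a, ?_⟩)⟩
    have : x - toReal (q - Pi.single a 1) - axisVec a = x - toReal q := funext fun l => by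
      simp only [Pi.sub_apply, toReal, axisVec, Pi.single_apply]
      split_ifs <;> push_cast <;> ring
    rwa [mem_ofPred_eq, this]
  · exact ⟨q, Or.inl ⟨hc, hd⟩⟩

/-- The open unit cube away from all dents. -/
def core : Set (Fin d → ℝ) :=
  {y | (∀ l, 0 < y l ∧ y l < 1) ∧
    ((∃ l, 3 / 5 < y l) ∨ (∃ l, 1 / 5 < y l ∧ y l < 2 / 5) ∨
      ∃ k l, k ≠ l ∧ y k < 1 / 5 ∧ y l < 1 / 5)}

lemma isOpen_core : IsOpen (core : Set (Fin d → ℝ)) := by
  have h : (core : Set (Fin d → ℝ)) = (⋂ l, {y | 0 < y l} ∩ {y | y l < 1}) ∩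
      ((⋃ l, {y | 3 / 5 < y l}) ∪ ((⋃ l, {y | 1 / 5 < y l} ∩ {y | y l < 2 / 5}) ∪
        ⋃ (k : Fin d) (l : Fin d) (_ : k ≠ l), {y | y k < 1 / 5} ∩ {y | y l < 1 / 5})) := by
    ext y
    simp only [core, Set.mem_ofPred_eq, mem_inter_iff, mem_union, mem_iInter, mem_iUnion, exists_prop]
  have hlt : ∀ (c : ℝ) (l : Fin d), IsOpen {y : Fin d → ℝ | c < y l} := fun c l =>
    isOpen_lt continuous_const (continuous_apply l)
  have hgt : ∀ (c : ℝ) (l : Fin d), IsOpen {y : Fin d → ℝ | y l < c} := fun c l =>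
    isOpen_lt (continuous_apply l) continuous_const
  rw [h]
  exact (isOpen_iInter_of_finite fun l => (hlt _ l).inter (hgt _ l)).inter
    ((isOpen_iUnion fun l => hlt _ l).union ((isOpen_iUnion fun l => (hlt _ l).inter (hgt _ l)).union
      (isOpen_iUnion fun k => isOpen_iUnion fun l => isOpen_iUnion fun _ =>
        (hgt _ k).inter (hgt _ l))))

lemma core_subset_bump {y : Fin d → ℝ} (h : y ∈ core) : y ∈ bump := by
  refine Or.inl ⟨fun l => ⟨(h.1 l).1.le, (h.1 l).2⟩, fun hd => ?_⟩
  obtain ⟨a, ha⟩ := mem_iUnion.1 hd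
  rcases h.2 with ⟨l, hl⟩ | ⟨l, hl⟩ | ⟨k, l, hkl, hk, hl⟩
  · have := (ha l).2; have := lo_le a l; linarith
  · have h1 := ha l
    unfold lo at h1
    split_ifs at h1 <;> linarith [hl.1, hl.2, h1.1, h1.2]
  · have h1 := (ha k).1
    have h2 := (ha l).1
    unfold lo at h1 h2
    split_ifs at h1 h2 with e1 e2 e2
    all_goals first | linarith | exact hkl (e1.trans e2.symm)

lemma exists_core_pair_aux (hd : 2 ≤ d) {w : Fin d → ℝ} (hw : ∀ l, 0 ≤ w l ∧ w l < 1) :
    ∃ y : Fin d → ℝ, y ∈ core ∧ y + w ∈ core := by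
  by_cases hsmall : ∃ l, w l < 4 / 5
  · obtain ⟨l, hl⟩ := hsmall
    obtain ⟨k, hk⟩ : ∃ k : Fin d, k ≠ l := by
      have : Nontrivial (Fin d) := Fin.nontrivial_iff_two_le.2 hd
      exact exists_ne l
    set m : Fin d → ℝ := fun i => min (1 - w i) (2 / 5)
    have hm : ∀ i, 0 < m i ∧ m i ≤ 1 - w i ∧ m i ≤ 2 / 5 := fun i =>
      ⟨lt_min (by linarith [(hw i).2]) (by norm_num), min_le_left _ _, min_le_right _ _⟩
    have hml : 1 / 5 < m l := lt_min (by linarith) (by norm_num)
    refine ⟨fun i => if i = l then (1 / 5 + m l) / 2 else 1 - w i - m i / 2,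
      ⟨fun i => ?_, Or.inr (Or.inl ⟨l, ?_⟩)⟩, ⟨fun i => ?_, Or.inl ⟨k, ?_⟩⟩⟩
    · have := hm i; have := hw i
      dsimp only
      split_ifs with e
      · subst e; constructor <;> linarith
      · constructor <;> linarith
    · have := hm l
      simp only [if_pos]
      constructor <;> linarith
    · have := hm i; have := hw i
      simp only [Pi.add_apply]
      split_ifs with e
      · subst e; constructor <;> linarith
      · constructor <;> linarith
    · have := hm k; have := hw k
      simp only [Pi.add_apply, if_neg hk]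
      linarith
  · push Not at hsmall
    have i0 : Fin d := ⟨0, by omega⟩
    refine ⟨fun i => (1 - w i) / 2,
      ⟨fun i => ?_, Or.inr (Or.inr ⟨⟨0, by omega⟩, ⟨1, by omega⟩, ?_, ?_, ?_⟩)⟩,
      ⟨fun i => ?_, Or.inl ⟨i0, ?_⟩⟩⟩
    · have := hw i; dsimp only; constructor <;> linarith
    · simp [Fin.ext_iff]
    · have := hw ⟨0, by omega⟩; have := hsmall ⟨0, by omega⟩; dsimp only; linarith
    · have := hw ⟨1, by omega⟩; have := hsmall ⟨1, by omega⟩; dsimp only; linarith
    · have := hw i; simp only [Pi.add_apply]; constructor <;> linarith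
    · have := hw i0; have := hsmall i0; simp only [Pi.add_apply]; linarith

/-- Two translates with all offsets below one share an open piece. -/
lemma exists_core_pair (hd : 2 ≤ d) {w : Fin d → ℝ} (hw : ∀ l, |w l| < 1) :
    ∃ y : Fin d → ℝ, y ∈ core ∧ y + w ∈ core := by
  by_cases hp : ∀ l, 0 ≤ w l
  · exact exists_core_pair_aux hd fun l => ⟨hp l, (abs_lt.1 (hw l)).2⟩
  by_cases hn : ∀ l, w l ≤ 0
  · obtain ⟨y, h1, h2⟩ := exists_core_pair_aux hd (w := -w) fun l =>
      ⟨by simpa using hn l, by simpa using neg_lt.1 (abs_lt.1 (hw l)).1⟩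
    exact ⟨y + -w, h2, by simpa using h1⟩
  push Not at hp hn
  obtain ⟨k, hk⟩ := hp
  obtain ⟨j, hj⟩ := hn
  set m : Fin d → ℝ := fun i => min (1 - |w i|) (2 / 5)
  have hm : ∀ i, 0 < m i ∧ m i ≤ 1 - |w i| ∧ m i ≤ 2 / 5 := fun i =>
    ⟨lt_min (by linarith [hw i]) (by norm_num), min_le_left _ _, min_le_right _ _⟩
  refine ⟨fun i => if 0 ≤ w i then 1 - w i - m i / 2 else 1 - m i / 2,
    ⟨fun i => ?_, Or.inl ⟨k, ?_⟩⟩, ⟨fun i => ?_, Or.inl ⟨j, ?_⟩⟩⟩
  · have := hm i; have := le_abs_self (w i); have := neg_abs_le (w i)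
    dsimp only
    split_ifs <;> constructor <;> linarith
  · have := hm k; simp only [if_neg (not_le.2 hk)]; linarith
  · have := hm i; have := le_abs_self (w i); have := neg_abs_le (w i)
    simp only [Pi.add_apply]
    split_ifs <;> constructor <;> linarith
  · have := hm j; have := le_abs_self (w j); simp only [Pi.add_apply, if_pos hj.le]; linarith

/-- An open nonempty set meets every almost everywhere true property. -/
lemma exists_mem_of_ae {U : Set (Fin d → ℝ)} (hU : IsOpen U) (hne : U.Nonempty)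
    {P : (Fin d → ℝ) → Prop} (h : ∀ᵐ x ∂(volume : Measure (Fin d → ℝ)), P x) :
    ∃ x ∈ U, P x := by
  by_contra hc
  push Not at hc
  exact (hU.measure_pos volume hne).ne' (measure_mono_null hc (ae_iff.1 h))

variable {T : Set (Fin d → ℝ)}

/-- In a tiling by bumpy cubes nearby translates coincide. -/
lemma eq_of_close (hd : 2 ≤ d) (hT : RTiles bump T) {t u : Fin d → ℝ} (ht : t ∈ T) (hu : u ∈ T)
    (h : ∀ l, |u l - t l| < 1) : u = t := by
  by_contra hne
  obtain ⟨y, hy, hy'⟩ := exists_core_pair hd (w := u - t) h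
  set U := {x | x - u ∈ (core : Set (Fin d → ℝ))} ∩ {x | x - t ∈ core}
  have hU : IsOpen U := (isOpen_core.preimage (by fun_prop)).inter
    (isOpen_core.preimage (by fun_prop))
  have hUne : U.Nonempty := by
    refine ⟨y + u, ?_, ?_⟩
    · simpa using hy
    · simpa [add_sub_assoc] using hy'
  exact (hU.measure_pos volume hUne).ne' (measure_mono_null
    (inter_subset_inter (fun x hx => core_subset_bump (y := x - u) hx)
      fun x hx => core_subset_bump (y := x - t) hx)
    (hT.2 hu ht hne))

lemma sub_unit_mem (hd : 2 ≤ d) (hT : RTiles bump T) {t : Fin d → ℝ} (ht : t ∈ T) (a : Fin d) :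
    t - axisVec a ∈ T := by
  classical
  -- whatever covers a point of the dent of `t` does so by its bump of direction `a`
  have key : ∀ x : Fin d → ℝ, (∀ l, lo a l < x l - t l ∧ x l - t l < lo a l + 1 / 5) →
      ∀ u ∈ T, x - u ∈ bump →
        x - u - axisVec a ∈ dent a ∧ ∀ l, |u l - (t - axisVec a) l| < 1 / 4 := by
    intro x hx u hu hxu
    have close : (∀ l, |u l - t l| < 1) → False := fun hcl => by
      obtain rfl := eq_of_close hd hT ht hu hcl
      rcases hxu with ⟨-, hnd⟩ | hb
      · exact hnd (mem_iUnion.2 ⟨a, fun l => ⟨(hx l).1.le, (hx l).2⟩⟩)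
      · obtain ⟨b, hb⟩ := mem_iUnion.1 hb
        have h1 := (hb b).1
        have h2 := (hx b).2
        have := lo_le a b
        simp only [lo, axisVec, Pi.sub_apply, if_pos] at h1
        linarith
    rcases hxu with ⟨hc, -⟩ | hb
    · refine (close fun l => ?_).elim
      have h1 := hc l; have h2 := hx l; have := lo_nonneg a l; have := lo_le a l
      simp only [Pi.sub_apply] at h1
      rw [abs_lt]; constructor <;> linarith
    obtain ⟨b, hb⟩ := mem_iUnion.1 hb
    by_cases hba : b = a
    · subst hba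
      refine ⟨hb, fun l => ?_⟩
      have h1 := hb l; have h2 := hx l
      simp only [Pi.sub_apply] at h1 ⊢
      rw [abs_lt]; constructor <;> linarith
    · refine (close fun l => ?_).elim
      have h1 := hb l; have h2 := hx l
      simp only [Pi.sub_apply, lo, axisVec] at h1 h2
      rw [abs_lt]
      split_ifs at h1 h2 with e1 e2 e2
      · exact absurd (e1.symm.trans e2) hba
      all_goals constructor <;> linarith
  set mid : Fin d → ℝ := fun l => t l + lo a l + 1 / 10
  have hopen : IsOpen {x : Fin d → ℝ | ∀ l, lo a l < x l - t l ∧ x l - t l < lo a l + 1 / 5} := by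
    simp only [ofPred_forall, ofPred_and]
    exact isOpen_iInter_of_finite fun l => (isOpen_lt continuous_const (by fun_prop)).inter
      (isOpen_lt (by fun_prop) continuous_const)
  obtain ⟨x0, hx0, u, hu, hxu⟩ := exists_mem_of_ae hopen ⟨mid, fun l => by
    simp only [mid]; constructor <;> linarith⟩ hT.1
  obtain ⟨-, hu0⟩ := key x0 hx0 u hu hxu
  suffices u = t - axisVec a by rwa [← this]
  by_contra hne
  obtain ⟨l0, hl0⟩ := Function.ne_iff.1 hne
  set v : ℝ := u l0 - (t - axisVec a) l0 with hv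
  have hv0 : v ≠ 0 := sub_ne_zero.2 hl0
  have hv' : v = u l0 - (t l0 - axisVec a l0) := hv
  set W : Set (Fin d → ℝ) :=
    {x | ∀ l, lo a l < x l - t l ∧ x l - t l < lo a l + 1 / 5} ∩
      {x | x l0 - u l0 - axisVec a l0 < lo a l0 ∨ lo a l0 + 1 / 5 < x l0 - u l0 - axisVec a l0}
  have hWopen : IsOpen W := hopen.inter (by
    rw [ofPred_or]
    exact (isOpen_lt (by fun_prop) continuous_const).union
      (isOpen_lt continuous_const (by fun_prop)))
  have hWne : W.Nonempty := by
    rcases lt_or_gt_of_ne hv0 with hneg | hpos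
    · have h1 : 0 < min (-v) (1 / 5) := lt_min (by linarith) (by norm_num)
      have h2 := min_le_left (-v) (1 / 5)
      have h3 := min_le_right (-v) (1 / 5 : ℝ)
      refine ⟨Function.update mid l0 (t l0 + lo a l0 + 1 / 5 - min (-v) (1 / 5) / 2),
        fun l => ?_, Or.inr ?_⟩
      · rcases eq_or_ne l l0 with rfl | hl
        · rw [Function.update_self]; constructor <;> linarith
        · rw [Function.update_of_ne hl]; simp only [mid]; constructor <;> linarith
      · rw [Function.update_self]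
        linarith
    · have h1 : 0 < min v (1 / 5) := lt_min hpos (by norm_num)
      have h2 := min_le_left v (1 / 5)
      have h3 := min_le_right v (1 / 5 : ℝ)
      refine ⟨Function.update mid l0 (t l0 + lo a l0 + min v (1 / 5) / 2),
        fun l => ?_, Or.inl ?_⟩
      · rcases eq_or_ne l l0 with rfl | hl
        · rw [Function.update_self]; constructor <;> linarith
        · rw [Function.update_of_ne hl]; simp only [mid]; constructor <;> linarith
      · rw [Function.update_self]
        linarith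
  obtain ⟨x, ⟨hx, hxW⟩, u', hu', hxu'⟩ := exists_mem_of_ae hWopen hWne hT.1
  obtain ⟨hdent, hu1⟩ := key x hx u' hu' hxu'
  obtain rfl : u' = u := eq_of_close hd hT hu hu' fun l => by
    have := abs_lt.1 (hu0 l); have := abs_lt.1 (hu1 l)
    rw [abs_lt]; constructor <;> linarith
  have := hdent l0
  simp only [Pi.sub_apply] at this
  rcases hxW with h | h <;> linarith [this.1, this.2]

lemma add_unit_mem (hd : 2 ≤ d) (hT : RTiles bump T) {t : Fin d → ℝ} (ht : t ∈ T) (a : Fin d) :
    t + axisVec a ∈ T := by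
  have hopen : IsOpen {x : Fin d → ℝ | ∀ l, 7 / 10 < x l - (t + axisVec a) l ∧
      x l - (t + axisVec a) l < 9 / 10} := by
    simp only [ofPred_forall, ofPred_and]
    exact isOpen_iInter_of_finite fun l => (isOpen_lt continuous_const (by fun_prop)).inter
      (isOpen_lt (by fun_prop) continuous_const)
  obtain ⟨x, hx, u, hu, hxu⟩ := exists_mem_of_ae hopen
    ⟨fun l => (t + axisVec a) l + 4 / 5, fun l => by dsimp only; constructor <;> linarith⟩ hT.1
  suffices hclose : ∀ l, |u l - (t + axisVec a) l| < 1 by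
    have := eq_of_close hd hT ht (sub_unit_mem hd hT hu a) fun l => by
      have := hclose l
      simp only [Pi.add_apply, Pi.sub_apply] at this ⊢
      rwa [show u l - axisVec a l - t l = u l - (t l + axisVec a l) by ring]
    rwa [← this, sub_add_cancel]
  intro l
  have h2 := hx l
  rw [abs_lt]
  rcases hxu with ⟨hc, -⟩ | hb
  · have h1 := hc l
    simp only [Pi.sub_apply] at h1
    constructor <;> linarith
  · obtain ⟨b, hb⟩ := mem_iUnion.1 hb
    have h1 := hb l
    simp only [Pi.sub_apply, lo, axisVec] at h1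
    split_ifs at h1 <;> constructor <;> linarith

/-- The bumpy cube tiles only by cosets of the lattice. -/
lemma rigid (hd : 2 ≤ d) (hT : RTiles bump T) {t u : Fin d → ℝ} (ht : t ∈ T) (hu : u ∈ T) :
    ∃ z : Grid d, u = t + toReal z := by
  let G : AddSubgroup (Fin d → ℝ) :=
    { carrier := {g | ∀ s, s + g ∈ T ↔ s ∈ T}
      add_mem' := fun {g g'} hg hg' s => by rw [← add_assoc, hg', hg]
      zero_mem' := fun s => by simp
      neg_mem' := fun {g} hg s => by simpa using (hg (s + -g)).symm }
  have hunit : ∀ a, axisVec a ∈ G := fun a s =>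
    ⟨fun h => by simpa using sub_unit_mem hd hT h a, fun h => add_unit_mem hd hT h a⟩
  set z : Grid d := fun l => ⌊u l - t l⌋
  have hz : toReal z ∈ G := by
    have : toReal z = ∑ a, z a • axisVec a := funext fun l => by
      simp [Finset.sum_apply, toReal, axisVec]
    rw [this]
    exact sum_mem fun a _ => AddSubgroup.zsmul_mem _ (hunit a) _
  refine ⟨z, eq_of_close hd hT ((hz t).2 ht) hu fun l => ?_⟩
  have := Int.floor_le (u l - t l); have := Int.lt_floor_add_one (u l - t l)
  simp only [Pi.add_apply, toReal, z]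
  rw [abs_lt]; constructor <;> linarith

/-- One bumpy cube at each point of `F`. -/
def thick (F : Finset (Grid d)) : Set (Fin d → ℝ) := ⋃ f ∈ F, {x | x - toReal f ∈ bump}

lemma toReal_add (a b : Grid d) : toReal (a + b) = toReal a + toReal b := by
  funext l; simp [toReal]

lemma toReal_injective : Function.Injective (toReal : Grid d → Fin d → ℝ) := fun a b h =>
  funext fun l => by simpa [toReal] using congrFun h l

lemma mem_thick {F : Finset (Grid d)} {x : Fin d → ℝ} :
    x ∈ thick F ↔ ∃ f ∈ F, x - toReal f ∈ bump := by simp [thick]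

lemma rtiles_thick {F : Finset (Grid d)} {A : Set (Grid d)} (h : Tiles F A) :
    RTiles (thick F) (toReal '' A) := by
  refine ⟨.of_forall fun x => ?_, ?_⟩
  · obtain ⟨z, hz⟩ := exists_bump x
    obtain ⟨f, ⟨hf, hfA⟩, -⟩ := h z
    refine ⟨_, ⟨z - f, hfA, rfl⟩, mem_thick.2 ⟨f, hf, ?_⟩⟩
    have := toReal_add (z - f) f
    rw [sub_add_cancel] at this
    rwa [sub_sub, ← this]
  · rintro _ ⟨a, ha, rfl⟩ _ ⟨b, hb, rfl⟩ hab
    suffices ({x | x - toReal a ∈ thick F} ∩ {x | x - toReal b ∈ thick F}) = ∅ by simp [this]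
    refine eq_empty_of_forall_notMem fun x ⟨hxa, hxb⟩ => hab ?_
    obtain ⟨f, hf, hxf⟩ := mem_thick.1 hxa
    obtain ⟨g, hg, hxg⟩ := mem_thick.1 hxb
    rw [sub_sub, ← toReal_add] at hxf hxg
    have hw : a + f - (b + g) = 0 := eq_zero_of_bump hxf (by
      convert hxg using 1
      funext l; simp [toReal])
    have hfg : f = g := (h (a + f)).unique ⟨hf, by simpa using ha⟩
      ⟨hg, by rw [sub_eq_zero.1 hw]; simpa using hb⟩
    rw [hfg] at hw
    simpa using congrArg toReal (sub_eq_zero.1 (by simpa using hw) : a = b)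

lemma volume_bump_pos (hd : 2 ≤ d) : 0 < volume (bump : Set (Fin d → ℝ)) := by
  obtain ⟨y, hy, -⟩ := exists_core_pair hd (w := 0) (by simp)
  exact lt_of_lt_of_le (isOpen_core.measure_pos volume ⟨y, hy⟩)
    (measure_mono fun _ h => core_subset_bump h)

lemma volume_shift (c : Fin d → ℝ) :
    volume {x : Fin d → ℝ | x - c ∈ bump} = volume (bump : Set (Fin d → ℝ)) := by
  simp only [sub_eq_add_neg]
  exact measure_preimage_add_right volume (-c) bump

lemma rtiles_bump {F : Finset (Grid d)} {A : Set (Fin d → ℝ)} (h : RTiles (thick F) A) :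
    RTiles bump {t | ∃ a ∈ A, ∃ f ∈ F, t = a + toReal f} := by
  refine ⟨h.1.mono fun x ⟨a, ha, hx⟩ => ?_, ?_⟩
  · obtain ⟨f, hf, hxf⟩ := mem_thick.1 hx
    exact ⟨_, ⟨a, ha, f, hf, rfl⟩, by rwa [← sub_sub]⟩
  · rintro _ ⟨a, ha, f, hf, rfl⟩ _ ⟨b, hb, g, hg, rfl⟩ hne
    have sub : ∀ (c : Fin d → ℝ), ∀ k ∈ F,
        {x | x - (c + toReal k) ∈ bump} ⊆ {x | x - c ∈ thick F} := fun c k hk x hx =>
      mem_thick.2 ⟨k, hk, by rwa [sub_sub]⟩
    rcases eq_or_ne a b with rfl | hab
    · suffices ({x | x - (a + toReal f) ∈ bump} ∩ {x | x - (a + toReal g) ∈ bump}) = ∅ by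
        simp [this]
      refine eq_empty_of_forall_notMem fun x ⟨hxf, hxg⟩ => hne ?_
      have hxf' : x - (a + toReal f) ∈ bump := hxf
      have hxg' : x - (a + toReal g) ∈ bump := hxg
      have := eq_zero_of_bump (w := f - g) hxf' (by
        convert hxg' using 1
        funext l; simp [toReal]; ring)
      rw [sub_eq_zero.1 this]
    · exact measure_mono_null (inter_subset_inter (sub a f hf) (sub b g hg)) (h.2 ha hb hab)

end Euclid

open Euclid in
/-- An aperiodic tile of `ℤ^d` gives an aperiodic measurable tile of `ℝ^d`. -/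
theorem exists_aperiodic_euclidean_tile {d : ℕ} (hd : 2 ≤ d) (F : Finset (Grid d))
    (hA : ∃ A, Tiles F A) (hno : ∀ A, Tiles F A → ¬ IsPeriodic A) :
    ∃ Ω : Set (Fin d → ℝ), MeasurableSet Ω ∧ Bornology.IsBounded Ω ∧ 0 < volume Ω ∧
      (∃ A, RTiles Ω A) ∧ ∀ A, RTiles Ω A → ¬ RPeriodic A := by
  obtain ⟨A₀, hA₀⟩ := hA
  obtain ⟨f₀, ⟨hf₀, -⟩, -⟩ := hA₀ 0
  have hsh : ∀ c : Fin d → ℝ, Measurable fun x : Fin d → ℝ => x - c := fun c => by fun_prop
  refine ⟨thick F, Finset.measurableSet_biUnion F fun f _ => hsh _ measurableSet_bump, ?_, ?_,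
    ⟨_, rtiles_thick hA₀⟩, ?_⟩
  · refine (Bornology.isBounded_biUnion_finset F).2 fun f _ => ?_
    refine (Metric.isBounded_Icc (toReal f) (toReal f + fun _ => 2)).subset fun x hx => ?_
    constructor <;> intro l <;> have := bump_bounded hx l <;>
      simp only [Pi.sub_apply, Pi.add_apply] at this ⊢ <;> linarith [this.1, this.2]
  · refine lt_of_lt_of_le (volume_bump_pos hd) (le_of_eq_of_le ?_
      (measure_mono fun x hx => mem_thick.2 ⟨f₀, hf₀, hx⟩))
    exact (volume_shift _).symm
  intro A hA ⟨v, hv, hper⟩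
  have hT := rtiles_bump hA
  obtain ⟨-, -, a₀, ha₀, -⟩ := exists_mem_of_ae isOpen_univ univ_nonempty hA.1
  have hint : ∀ a ∈ A, ∃ z : Grid d, a = a₀ + toReal z := fun a ha => by
    obtain ⟨z, hz⟩ := rigid hd hT ⟨a₀, ha₀, f₀, hf₀, rfl⟩ ⟨a, ha, f₀, hf₀, rfl⟩
    exact ⟨z, by rw [add_right_comm] at hz; exact add_right_cancel hz⟩
  set A' : Set (Grid d) := {z | a₀ + toReal z ∈ A}
  have hTiles : Tiles F A' := by
    intro x
    obtain ⟨y, -, ⟨t, ⟨a, ha, f, hf, rfl⟩, -⟩⟩ :=
      exists_mem_of_ae isOpen_univ univ_nonempty hT.1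
    -- every lattice translate of `a₀ + f₀` is a centre
    have hcen : ∃ a ∈ A, ∃ f ∈ F, a₀ + toReal x = a + toReal f := by
      have hgen : ∀ z : Grid d, ∀ t, (∃ a ∈ A, ∃ f ∈ F, t = a + toReal f) →
          ∃ a ∈ A, ∃ f ∈ F, t + toReal z = a + toReal f := by
        intro z
        let G : AddSubgroup (Grid d) :=
          { carrier := {g | ∀ s : Fin d → ℝ, (∃ a ∈ A, ∃ f ∈ F, s = a + toReal f) ↔
              ∃ a ∈ A, ∃ f ∈ F, s + toReal g = a + toReal f}
            add_mem' := fun {g g'} hg hg' s => by rw [toReal_add, ← add_assoc, ← hg', ← hg]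
            zero_mem' := fun s => by
              rw [show toReal (0 : Grid d) = 0 by funext l; simp [toReal], add_zero]
            neg_mem' := fun {g} hg s => by
              rw [hg (s + toReal (-g)), add_assoc, ← toReal_add, neg_add_cancel,
                show toReal (0 : Grid d) = 0 by funext l; simp [toReal], add_zero] }
        have hu : ∀ a, (Pi.single a 1 : Grid d) ∈ G := fun a s => by
          rw [show toReal (Pi.single a 1 : Grid d) = axisVec a by
            funext l; simp only [toReal, axisVec, Pi.single_apply]; split_ifs <;> simp]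
          exact ⟨fun h => add_unit_mem hd hT h a,
            fun h => by simpa using sub_unit_mem hd hT h a⟩
        have : z ∈ G := by
          rw [show z = ∑ a, z a • (Pi.single a 1 : Grid d) by
            funext l; simp [Finset.sum_apply, Pi.single_apply]]
          exact sum_mem fun a _ => AddSubgroup.zsmul_mem _ (hu a) _
        exact fun t ht => (this t).1 ht
      have := hgen (x - f₀) _ ⟨a₀, ha₀, f₀, hf₀, rfl⟩
      rwa [add_assoc, ← toReal_add, add_sub_cancel] at this
    obtain ⟨a, ha, f, hf, he⟩ := hcen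
    have hsub : ∀ g : Grid d, a₀ + toReal (x - g) = a₀ + toReal x - toReal g := fun g => by
      have := toReal_add (x - g) g
      rw [sub_add_cancel] at this
      rw [this]; abel
    refine ⟨f, ⟨hf, ?_⟩, fun g ⟨hg, hgA⟩ => ?_⟩
    · show a₀ + toReal (x - f) ∈ A
      rwa [hsub, he, add_sub_cancel_right]
    by_contra hgf
    change a₀ + toReal (x - g) ∈ A at hgA
    rw [hsub, he] at hgA
    have hne : a ≠ a + toReal f - toReal g := fun h => hgf (toReal_injective <| by
      have := congrArg (fun s => s + toReal g - a) h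
      simpa using this)
    have hsubset : {y | y - (a + toReal f) ∈ (bump : Set (Fin d → ℝ))} ⊆
        {y | y - a ∈ thick F} ∩ {y | y - (a + toReal f - toReal g) ∈ thick F} := fun y hy =>
      ⟨mem_thick.2 ⟨f, hf, by rw [sub_sub]; exact hy⟩, mem_thick.2 ⟨g, hg, by
        rw [sub_sub, sub_add_cancel]; exact hy⟩⟩
    have hzero := measure_mono_null hsubset (hA.2 ha hgA hne)
    exact (volume_bump_pos hd).ne' ((volume_shift _).symm.trans hzero)
  -- the periods are integral
  have hz : ∀ i, ∃ z : Grid d, v i = toReal z := fun i => by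
    obtain ⟨z, hz⟩ := hint _ ((hper i a₀).2 ha₀)
    exact ⟨z, add_left_cancel hz⟩
  choose z hz using hz
  let P : AddSubgroup (Grid d) :=
    { carrier := {g | ∀ a, a + g ∈ A' ↔ a ∈ A'}
      add_mem' := fun {g g'} hg hg' s => by rw [← add_assoc, hg', hg]
      zero_mem' := fun s => by simp
      neg_mem' := fun {g} hg s => by simpa using (hg (s + -g)).symm }
  have hzP : ∀ i, z i ∈ P := fun i a => by
    show a₀ + toReal (a + z i) ∈ A ↔ a₀ + toReal a ∈ A
    rw [toReal_add, ← hz, ← add_assoc, hper]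
  set M : Matrix (Fin d) (Fin d) ℤ := fun i l => z i l
  have hdet : M.det ≠ 0 := by
    intro h0
    have hR : (M.map (Int.cast : ℤ → ℝ)).det = 0 := by
      rw [← Int.cast_det]; simp [h0]
    have hrow : (M.map (Int.cast : ℤ → ℝ)).row = v := by
      funext i l; rw [hz i]; rfl
    have hu : IsUnit (M.map (Int.cast : ℤ → ℝ)) :=
      Matrix.linearIndependent_rows_iff_isUnit.1 (hrow.symm ▸ hv)
    rw [Matrix.isUnit_iff_isUnit_det, hR] at hu
    exact not_isUnit_zero hu
  have hmem : ∀ x : Grid d, M.det • x ∈ P := fun x => by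
    have : M.det • x = ∑ i, (Matrix.vecMul x M.adjugate i) • z i := by
      have h := Matrix.vecMul_vecMul x M.adjugate M
      rw [Matrix.adjugate_mul, Matrix.vecMul_smul, Matrix.vecMul_one] at h
      rw [← h]
      funext l
      simp [Matrix.vecMul, dotProduct, Finset.sum_apply, M]
    rw [this]
    exact sum_mem fun i _ => AddSubgroup.zsmul_mem _ (hzP i) _
  refine hno A' hTiles ⟨M.det.natAbs, Int.natAbs_pos.2 hdet, fun a x => ?_⟩
  rcases Int.natAbs_eq M.det with h | h
  · rw [← h]; exact hmem x a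
  · rw [show ((M.det.natAbs : ℤ)) = -M.det by omega, neg_smul]
    exact neg_mem (hmem x) a

end Vale.Agent.P043.Aperiodic
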