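import Mathlib
import Vale.Agent.P043.Defs

/-! From a system of tiling equations `A ⊕ F_i = ℤ^d` with a common `A` to a single tile, keeping
the non-existence of periodic solutions.

The lattice is scaled by `L`; a fundamental domain `R` of `L ℤ^d` with one bump and one dent for
each axis forces a periodic tiling by the stacked tile into one coset of `L ℤ^d`, and the cells of
`R` carry the different tiles. -/

namespace Vale.Agent.P043.Aperiodic

open Vale.Agent.P043

variable {d : ℕ}

/-- The properties of the shape that the stacking needs. -/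
structure Shape (d L : ℕ) where
  /-- the fundamental domain -/
  R : Finset (Grid d)
  /-- the cells that carry the extra tiles -/
  H : Finset (Grid d)
  /-- the dents -/
  p : Fin d → Grid d
  H_sub : H ⊆ R
  decomp : ∀ x : Grid d, ∃ q : Grid d, ∃ r ∈ R, x = (L : ℤ) • q + r
  unique : ∀ q q' : Grid d, ∀ r ∈ R, ∀ r' ∈ R,
    (L : ℤ) • q + r = (L : ℤ) • q' + r' → q = q' ∧ r = r'
  nbr : ∀ h ∈ H, ∀ r ∈ R, ∃ δ : Grid d, r + δ ∈ R ∧ r + δ ∉ H ∧ h + δ ∈ R ∧ h + δ ∉ H
  dent : ∀ j, p j ∉ R
  key : ∀ j, ∀ r ∈ R, r ≠ p j + (L : ℤ) • Pi.single j 1 →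
    ∃ δ : Grid d, r + δ ∈ R ∧ p j + δ ∈ R

section Torus

variable (P : ℕ)

/-- Reduction modulo `P`. -/
def proj : Grid d →+ (Fin d → ZMod P) where
  toFun x := fun i => ((x i : ℤ) : ZMod P)
  map_zero' := by funext i; simp
  map_add' x y := by funext i; simp

lemma proj_surjective : Function.Surjective (proj (d := d) P) := by
  intro t
  refine ⟨fun i => (ZMod.cast (t i) : ℤ), ?_⟩
  funext i
  simp [proj]

lemma proj_eq_proj {x y : Grid d} (h : proj P x = proj P y) :
    ∃ z : Grid d, x = y + (P : ℤ) • z := by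
  have h' : ∀ i, ∃ c : ℤ, x i = y i + (P : ℤ) * c := by
    intro i
    have hi : ((x i : ℤ) : ZMod P) = ((y i : ℤ) : ZMod P) := congrFun h i
    rw [ZMod.intCast_eq_intCast_iff_dvd_sub] at hi
    obtain ⟨c, hc⟩ := hi
    exact ⟨-c, by linarith⟩
  choose z hz using h'
  exact ⟨z, funext fun i => by simp [hz i]⟩

end Torus

variable {L : ℕ} (S : Shape d L) (T : Grid d → Finset (Grid d))

/-- The stacked tile: the cell `r` carries the tile `T r` scaled by `L`. -/
def stack : Finset (Grid d) :=
  (S.R.sigma T).image fun x => (L : ℤ) • x.2 + x.1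

lemma mem_stack {y : Grid d} :
    y ∈ stack S T ↔ ∃ r ∈ S.R, ∃ f ∈ T r, (L : ℤ) • f + r = y := by
  simp only [stack, Finset.mem_image, Finset.mem_sigma]
  constructor
  · rintro ⟨⟨r, f⟩, ⟨hr, hf⟩, h⟩
    exact ⟨r, hr, f, hf, h⟩
  · rintro ⟨r, hr, f, hf, h⟩
    exact ⟨⟨r, f⟩, ⟨hr, hf⟩, h⟩

lemma card_stack {k : ℕ} (hk : ∀ r ∈ S.R, (T r).card = k) :
    (stack S T).card = S.R.card * k := by
  rw [stack, Finset.card_image_of_injOn, Finset.card_sigma, Finset.sum_congr rfl hk]
  · simp
  · rintro ⟨r, f⟩ h ⟨r', f'⟩ h' he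
    simp only [Finset.mem_coe, Finset.mem_sigma] at h h'
    obtain ⟨rfl, rfl⟩ := S.unique f f' r h.1 r' h'.1 he
    rfl

/-- A common solution of all equations gives a tiling by the stacked tile. -/
theorem stack_tiles {A : Set (Grid d)} (hA : ∀ r ∈ S.R, Tiles (T r) A) :
    Tiles (stack S T) ((fun a => (L : ℤ) • a) '' A) := by
  intro x
  obtain ⟨q, r, hr, rfl⟩ := S.decomp x
  obtain ⟨f, ⟨hf, hfA⟩, hu⟩ := hA r hr q
  refine ⟨(L : ℤ) • f + r, ⟨(mem_stack S T).2 ⟨r, hr, f, hf, rfl⟩, q - f, hfA, ?_⟩, ?_⟩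
  · simp [smul_sub]
  rintro y ⟨hy, a, ha, hay⟩
  obtain ⟨r', hr', f', hf', rfl⟩ := (mem_stack S T).1 hy
  have h1 : (L : ℤ) • (a + f') + r' = (L : ℤ) • q + r := by
    rw [smul_add]
    simp only at hay
    rw [hay]
    abel
  obtain ⟨h2, rfl⟩ := S.unique _ _ r' hr' r hr h1
  have : f' = f := hu f' ⟨hf', by rw [← h2]; simpa using ha⟩
  rw [this]

/-- Every periodic tiling by the stacked tile comes from a periodic common solution. -/
theorem exists_periodic_of_stack (hL : 0 < L) (T0 : Finset (Grid d)) (hT0 : T0.Nonempty)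
    (hcore : ∀ r ∈ S.R, r ∉ S.H → T r = T0) (hcard : ∀ r ∈ S.R, (T r).card = T0.card)
    {A' : Set (Grid d)} (hA' : Tiles (stack S T) A') (hper : IsPeriodic A') :
    ∃ A : Set (Grid d), IsPeriodic A ∧ ∀ r ∈ S.R, Tiles (T r) A := by
  classical
  obtain ⟨n, hn, hn'⟩ := hper
  set P := L * n with hP
  have : NeZero P := ⟨(Nat.mul_pos hL hn).ne'⟩
  have hperP : ∀ a z : Grid d, a + (P : ℤ) • z ∈ A' ↔ a ∈ A' := by
    intro a z
    have : (P : ℤ) • z = (n : ℤ) • ((L : ℤ) • z) := by
      rw [smul_smul, hP]; push_cast; ring_nf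
    rw [this]; exact hn' a _
  set π := proj (d := d) P with hπ
  have hback : ∀ x, π x ∈ π '' A' → x ∈ A' := by
    rintro x ⟨y, hy, he⟩
    obtain ⟨z, rfl⟩ := proj_eq_proj P he.symm
    exact (hperP y z).2 hy
  let Abar : Finset (Fin d → ZMod P) := Finset.univ.filter (· ∈ π '' A')
  have hmem : ∀ t, t ∈ Abar ↔ t ∈ π '' A' := by simp [Abar]
  -- the tiling on the torus
  let Φ : ↥Abar × ↥(stack S T) → (Fin d → ZMod P) := fun x => x.1.1 + π x.2.1
  have hΦi : Function.Injective Φ := by
    rintro ⟨⟨a, ha⟩, ⟨f, hf⟩⟩ ⟨⟨a', ha'⟩, ⟨f', hf'⟩⟩ he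
    simp only [Φ] at he
    obtain ⟨x, hx⟩ := proj_surjective P (a + π f)
    have h1 : x - f ∈ A' := hback _ (by rw [map_sub, hπ, hx, add_sub_cancel_right]; exact (hmem a).1 ha)
    have h2 : x - f' ∈ A' := hback _ (by
      rw [map_sub, hπ, hx, he, add_sub_cancel_right]; exact (hmem a').1 ha')
    obtain ⟨g, -, hg⟩ := hA' x
    have hff : f = f' := (hg f ⟨hf, h1⟩).trans (hg f' ⟨hf', h2⟩).symm
    subst hff
    simp only [add_left_inj] at he
    subst he
    rfl
  have hΦs : Function.Surjective Φ := by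
    intro t
    obtain ⟨x, rfl⟩ := proj_surjective P t
    obtain ⟨f, ⟨hf, hfA⟩, -⟩ := hA' x
    exact ⟨⟨⟨π (x - f), (hmem _).2 ⟨_, hfA, rfl⟩⟩, ⟨f, hf⟩⟩, by simp [Φ, hπ]⟩
  -- the copies of `R`
  let pt : ↥Abar × ↥T0 → (Fin d → ZMod P) := fun c => c.1.1 + π ((L : ℤ) • c.2.1)
  let Ψ : (↥Abar × ↥T0) × ↥S.R → (Fin d → ZMod P) := fun x => pt x.1 + π x.2.1
  have hcoreInj : ∀ (c c' : ↥Abar × ↥T0) (r r' : Grid d), r ∈ S.R → r ∉ S.H → r' ∈ S.R →
      r' ∉ S.H → pt c + π r = pt c' + π r' → c = c' ∧ r = r' := by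
    rintro ⟨a, f⟩ ⟨a', f'⟩ r r' hr hrH hr' hr'H he
    have hf : (L : ℤ) • f.1 + r ∈ stack S T :=
      (mem_stack S T).2 ⟨r, hr, f.1, by rw [hcore r hr hrH]; exact f.2, rfl⟩
    have hf' : (L : ℤ) • f'.1 + r' ∈ stack S T :=
      (mem_stack S T).2 ⟨r', hr', f'.1, by rw [hcore r' hr' hr'H]; exact f'.2, rfl⟩
    have := @hΦi ⟨a, ⟨_, hf⟩⟩ ⟨a', ⟨_, hf'⟩⟩ (by
      simp only [pt, Φ, map_add] at he ⊢
      rw [← add_assoc, ← add_assoc]; exact he)
    simp only [Prod.mk.injEq, Subtype.mk.injEq] at this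
    obtain ⟨rfl, h⟩ := this
    obtain ⟨h1, h2⟩ := S.unique _ _ r hr r' hr' h
    exact ⟨by rw [Subtype.ext h1], h2⟩
  have hΨi : Function.Injective Ψ := by
    rintro ⟨c, r, hr⟩ ⟨c', r', hr'⟩ he
    simp only [Ψ] at he
    have main : ∀ δ : Grid d, r + δ ∈ S.R → r + δ ∉ S.H → r' + δ ∈ S.R → r' + δ ∉ S.H →
        ((c, (⟨r, hr⟩ : ↥S.R)) = (c', ⟨r', hr'⟩)) := by
      intro δ a1 a2 a3 a4
      obtain ⟨rfl, h⟩ := hcoreInj c c' _ _ a1 a2 a3 a4 (by
        rw [map_add, map_add, ← add_assoc, ← add_assoc, he])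
      obtain rfl := add_right_cancel h
      rfl
    by_cases h1 : r ∈ S.H
    · obtain ⟨δ, a1, a2, a3, a4⟩ := S.nbr r h1 r' hr'
      exact main δ a3 a4 a1 a2
    by_cases h2 : r' ∈ S.H
    · obtain ⟨δ, a1, a2, a3, a4⟩ := S.nbr r' h2 r hr
      exact main δ a1 a2 a3 a4
    exact main 0 (by simpa using hr) (by simpa using h1) (by simpa using hr') (by simpa using h2)
  have hΨs : Function.Surjective Ψ := by
    apply Function.Bijective.surjective
    rw [Fintype.bijective_iff_injective_and_card]
    refine ⟨hΨi, ?_⟩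
    rw [← Fintype.card_of_bijective ⟨hΦi, hΦs⟩]
    simp only [Fintype.card_prod, Fintype.card_coe, card_stack S T hcard]
    ring
  -- the translates are invariant under the scaled lattice
  let Cs : Set (Fin d → ZMod P) := Set.range pt
  let St : AddSubmonoid (Fin d → ZMod P) :=
    { carrier := {v | ∀ c ∈ Cs, c + v ∈ Cs}
      zero_mem' := fun c hc => by simpa using hc
      add_mem' := fun {u v} hu hv c hc => by rw [← add_assoc]; exact hv _ (hu c hc) }
  have hneg : ∀ v ∈ St, -v ∈ St := by
    intro v hv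
    have h : (addOrderOf v - 1) • v + v = 0 := by
      rw [← succ_nsmul, Nat.sub_add_cancel (addOrderOf_pos v), addOrderOf_nsmul_eq_zero]
    rw [← eq_neg_of_add_eq_zero_left h]
    exact nsmul_mem hv _
  let G : AddSubgroup (Fin d → ZMod P) := { St with neg_mem' := fun {v} => hneg v }
  have hstep : ∀ j, π ((L : ℤ) • Pi.single j 1) ∈ G := by
    intro j
    rw [← G.neg_mem_iff]
    rintro _ ⟨c, rfl⟩
    obtain ⟨⟨c', r, hr⟩, he⟩ := hΨs (pt c + π (S.p j))
    simp only [Ψ] at he
    by_cases hb : r = S.p j + (L : ℤ) • Pi.single j 1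
    · refine ⟨c', ?_⟩
      rw [hb, map_add] at he
      rw [← sub_eq_add_neg, eq_sub_iff_add_eq]
      apply add_right_cancel (b := π (S.p j))
      rw [← he]; abel
    · obtain ⟨δ, a1, a2⟩ := S.key j r hr hb
      have := @hΨi (c', ⟨_, a1⟩) (c, ⟨_, a2⟩) (by
        simp only [Ψ, map_add, ← add_assoc, he])
      simp only [Prod.mk.injEq, Subtype.mk.injEq, add_left_inj] at this
      exact absurd (this.2 ▸ hr) (S.dent j)
  have hlat : ∀ q : Grid d, π ((L : ℤ) • q) ∈ G := by
    intro q
    rw [← Finset.univ_sum_single q, Finset.smul_sum, map_sum]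
    refine G.sum_mem fun j _ => ?_
    have : (L : ℤ) • Pi.single j (q j) = q j • ((L : ℤ) • (Pi.single j 1 : Grid d)) := by
      funext i; by_cases h : i = j <;> simp [h]; ring
    rw [this, map_zsmul]
    exact G.zsmul_mem (hstep j) _
  -- hence the translates form one coset
  obtain ⟨f0, hf0⟩ := hT0
  obtain ⟨g, ⟨-, hb⟩, -⟩ := hA' 0
  set b := (0 : Grid d) - g
  have hbbar : π b ∈ Abar := (hmem _).2 ⟨b, hb, rfl⟩
  have hcos : ∀ a ∈ A', ∃ z : Grid d, a = b + (L : ℤ) • z := by
    intro a ha
    have habar : π a ∈ Abar := (hmem _).2 ⟨a, ha, rfl⟩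
    obtain ⟨r0, hr0⟩ : ∃ r, r ∈ S.R := by
      obtain ⟨q, r, hr, -⟩ := S.decomp 0; exact ⟨r, hr⟩
    obtain ⟨q, r, hr, hq⟩ := S.decomp (a - b + r0)
    let c0 : ↥Abar × ↥T0 := (⟨π b, hbbar⟩, ⟨f0, hf0⟩)
    let c : ↥Abar × ↥T0 := (⟨π a, habar⟩, ⟨f0, hf0⟩)
    obtain ⟨c1, hc1⟩ := hlat q (pt c0) ⟨c0, rfl⟩
    have := @hΨi (c, ⟨r0, hr0⟩) (c1, ⟨r, hr⟩) (by
      simp only [Ψ, hc1, pt, c, c0]
      have : π (a - b + r0) = π ((L : ℤ) • q + r) := by rw [hq]
      simp only [map_add, map_sub] at this
      linear_combination this)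
    simp only [Prod.mk.injEq, Subtype.mk.injEq] at this
    have : r0 = r := this.2
    refine ⟨q, ?_⟩
    subst this
    have := add_right_cancel hq
    rw [← this]; abel
  refine ⟨{z | b + (L : ℤ) • z ∈ A'}, ⟨n, hn, fun z w => ?_⟩, fun r hr q => ?_⟩
  · simp only [Set.mem_ofPred_eq, smul_add, ← add_assoc]
    rw [smul_comm]
    exact hn' _ _
  · obtain ⟨y, ⟨hy, hyA⟩, hu⟩ := hA' (b + ((L : ℤ) • q + r))
    obtain ⟨r', hr', f, hf, rfl⟩ := (mem_stack S T).1 hy
    obtain ⟨z, hz⟩ := hcos _ hyA
    have h1 : (L : ℤ) • (q - f) + r = (L : ℤ) • z + r' := by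
      rw [smul_sub]
      linear_combination (norm := abel) hz
    obtain ⟨h2, rfl⟩ := S.unique _ _ r hr r' hr' h1
    refine ⟨f, ⟨hf, ?_⟩, fun f' ⟨hf', hf'A⟩ => ?_⟩
    · show b + (L : ℤ) • (q - f) ∈ A'
      rw [h2, ← hz]; exact hyA
    · have := hu ((L : ℤ) • f' + r) ⟨(mem_stack S T).2 ⟨r, hr, f', hf', rfl⟩, by
        have : b + ((L : ℤ) • q + r) - ((L : ℤ) • f' + r) = b + (L : ℤ) • (q - f') := by
          rw [smul_sub]; abel
        rw [this]; exact hf'A⟩
      exact (S.unique _ _ r hr r hr this).1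

section Box

variable (m : ℕ)

/-- The dent on the face `x_j = 0`. -/
def dentPt (j : Fin d) : Grid d := fun i => if i = j then 0 else 4

/-- The cell that carries the extra tile `k`. -/
def holePt (k : Fin m) : Grid d := fun i => if (i : ℕ) = 0 then 4 * (k : ℤ) + 2 else 2

/-- The side of the box. -/
def side : ℕ := 4 * m + 8

/-- Membership in the bumpy box. -/
def InBumpy (x : Grid d) : Prop :=
  ((∀ i, 0 ≤ x i ∧ x i < side m) ∧ ∀ j, x ≠ dentPt j) ∨
    ∃ j, x = dentPt j + (side m : ℤ) • Pi.single j 1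

open Classical in
/-- The bumpy box, as the image of the box. -/
noncomputable def bumpy : Finset (Grid d) :=
  (Fintype.piFinset fun _ : Fin d => Finset.Ico (0 : ℤ) (side m)).image fun x i =>
    x i + (side m : ℤ) * if x = dentPt i then 1 else 0

lemma dentPt_injective : Function.Injective (dentPt (d := d)) := by
  intro i j h
  have := congrFun h i
  simp only [dentPt, if_true] at this
  by_contra hne
  simp [hne] at this

lemma mem_bumpy {x : Grid d} : x ∈ bumpy m ↔ InBumpy m x := by
  classical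
  simp only [bumpy, Finset.mem_image, Fintype.mem_piFinset, Finset.mem_Ico]
  constructor
  · rintro ⟨c, hc, rfl⟩
    by_cases h : ∃ j, c = dentPt j
    · obtain ⟨j, rfl⟩ := h
      right
      refine ⟨j, funext fun i => ?_⟩
      simp only [dentPt_injective.eq_iff, Pi.add_apply, Pi.smul_apply, Pi.single_apply, smul_eq_mul]
      by_cases hij : i = j <;> simp [hij, Ne.symm]
    · push Not at h
      left
      have : (fun i => c i + (side m : ℤ) * if c = dentPt i then 1 else 0) = c :=
        funext fun i => by simp [h i]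
      rw [this]
      exact ⟨hc, h⟩
  · rintro (⟨hx, hne⟩ | ⟨j, rfl⟩)
    · exact ⟨x, hx, funext fun i => by simp [hne i]⟩
    · refine ⟨dentPt j, fun i => ?_, funext fun i => ?_⟩
      · simp only [dentPt, side]; split <;> omega
      · simp only [dentPt_injective.eq_iff, Pi.add_apply, Pi.smul_apply, Pi.single_apply,
          smul_eq_mul]
        by_cases hij : i = j <;> simp [hij, Ne.symm]

lemma bumpy_decomp (x : Grid d) :
    ∃ q : Grid d, ∃ r ∈ bumpy m, x = (side m : ℤ) • q + r := by
  classical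
  set c : Grid d := fun i => x i % (side m : ℤ) with hc
  refine ⟨fun i => x i / (side m : ℤ) - if c = dentPt i then 1 else 0,
    fun i => c i + (side m : ℤ) * if c = dentPt i then 1 else 0, ?_, funext fun i => ?_⟩
  · simp only [bumpy, Finset.mem_image, Fintype.mem_piFinset, Finset.mem_Ico]
    have hs : (0 : ℤ) < side m := by simp only [side]; omega
    exact ⟨c, fun i => ⟨Int.emod_nonneg _ hs.ne', Int.emod_lt_of_pos _ hs⟩, rfl⟩
  · simp only [Pi.add_apply, Pi.smul_apply, smul_eq_mul]
    have h := Int.mul_ediv_add_emod (x i) (side m : ℤ)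
    have h' : c i = x i % (side m : ℤ) := by rw [hc]
    linear_combination -h' - h

lemma bumpy_unique (q q' r : Grid d) (hr : r ∈ bumpy m) (r' : Grid d) (hr' : r' ∈ bumpy m)
    (h : (side m : ℤ) • q + r = (side m : ℤ) • q' + r') : q = q' ∧ r = r' := by
  classical
  have hs : (0 : ℤ) < side m := by simp only [side]; omega
  simp only [bumpy, Finset.mem_image, Fintype.mem_piFinset, Finset.mem_Ico] at hr hr'
  obtain ⟨c, hc, rfl⟩ := hr
  obtain ⟨c', hc', rfl⟩ := hr'
  have hcc : c = c' := funext fun i => by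
    have hi := congrArg (fun t : ℤ => t % (side m : ℤ)) (congrFun h i)
    simp only [Pi.add_apply, Pi.smul_apply, smul_eq_mul, Int.mul_add_emod_self_left,
      Int.add_mul_emod_self_left] at hi
    rwa [Int.emod_eq_of_lt (hc i).1 (hc i).2, Int.emod_eq_of_lt (hc' i).1 (hc' i).2] at hi
  subst hcc
  have h2 := add_right_cancel h
  refine ⟨funext fun i => ?_, rfl⟩
  have := congrFun h2 i
  simp only [Pi.smul_apply, smul_eq_mul] at this
  exact mul_left_cancel₀ hs.ne' this

/-- The holes. -/
def holes : Finset (Grid d) := Finset.univ.image (holePt (d := d) m)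

lemma mem_holes {x : Grid d} : x ∈ holes m ↔ ∃ k, holePt m k = x := by simp [holes]

lemma dent_notMem (j : Fin d) : dentPt j ∉ bumpy (d := d) m := by
  rw [mem_bumpy]
  rintro (⟨-, h⟩ | ⟨i, h⟩)
  · exact h j rfl
  · have hi := congrFun h i
    simp only [dentPt, side, Pi.add_apply, Pi.smul_apply, Pi.single_eq_same, smul_eq_mul] at hi
    split at hi <;> omega

/-- A step along an axis: the two unit vectors. -/
def step (i : Fin d) (s : Bool) : Grid d := Pi.single i (if s then 1 else -1)

lemma step_apply (i l : Fin d) (s : Bool) :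
    step i s l = if l = i then (if s then 1 else -1) else 0 := by
  simp [step, Pi.single_apply]

/-- Every cell has a neighbour in the core along any given axis, or is a bump on another axis. -/
lemma core_nbr (hd : 2 ≤ d) {x : Grid d} (hx : (∀ l, 0 ≤ x l ∧ x l < side m) ∧ ∀ j, x ≠ dentPt j) (i : Fin d) :
    ∃ s, x + step i s ∈ bumpy m ∧ x + step i s ∉ holes m := by
  obtain ⟨hx, -⟩ := hx
  have good : ∀ y : Grid d, (∀ l, 0 ≤ y l ∧ y l < side m) → (∀ j, y ≠ dentPt j) →
      (∀ k, holePt m k ≠ y) → y ∈ bumpy m ∧ y ∉ holes m := fun y a b c =>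
    ⟨(mem_bumpy m).2 (Or.inl ⟨a, b⟩), by rw [mem_holes]; push Not; exact c⟩
  have inbox : ∀ s, (0 ≤ x i + (if s then 1 else -1) ∧ x i + (if s then 1 else -1) < side m) →
      ∀ l, 0 ≤ (x + step i s) l ∧ (x + step i s) l < side m := by
    intro s h l
    rw [Pi.add_apply, step_apply]
    by_cases hl : l = i
    · subst hl; simpa using h
    · simpa [hl] using hx l
  by_cases h0 : x i = 0
  · refine ⟨true, good _ (inbox true (by simp [h0, side]; omega)) (fun j hj => ?_) (fun k hk => ?_)⟩
    · have := congrFun hj i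
      simp [step_apply, h0, dentPt] at this
      split at this <;> omega
    · have := congrFun hk i
      simp [step_apply, h0, holePt] at this
      split at this <;> omega
  by_cases h1 : x i = (side m : ℤ) - 1
  · refine ⟨false, good _ (inbox false (by simp [h1, side]; omega)) (fun j hj => ?_)
      (fun k hk => ?_)⟩
    · have := congrFun hj i
      simp [step_apply, h1, dentPt, side] at this
      split at this <;> omega
    · have := congrFun hk i
      simp [step_apply, h1, holePt, side] at this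
      split at this <;> omega
  have hlo : 1 ≤ x i ∧ x i ≤ (side m : ℤ) - 2 := by have := hx i; omega
  by_contra hcon
  push Not at hcon
  have special : ∀ s, (∃ j, x + step i s = dentPt j) ∨ ∃ k, holePt m k = x + step i s := by
    intro s
    by_contra hh
    push Not at hh
    have hb := good _ (inbox s (by cases s <;> simp <;> omega)) hh.1 hh.2
    exact hb.2 (hcon s hb.1)
  have two : (x + step i true) i = (x + step i false) i + 2 := by
    simp [step_apply]; ring
  have same : ∀ l, l ≠ i → (x + step i true) l = (x + step i false) l := by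
    intro l hl; simp [step_apply, hl]
  obtain ⟨l, hl⟩ : ∃ l, l ≠ i := by
    by_contra hcon'
    push Not at hcon'
    have := (hcon' ⟨0, by omega⟩).trans (hcon' ⟨1, by omega⟩).symm
    simp at this
  rcases special true with ⟨j, hj⟩ | ⟨k, hk⟩ <;> rcases special false with ⟨j', hj'⟩ | ⟨k', hk'⟩
  · rw [hj, hj'] at two
    simp only [dentPt] at two
    split at two <;> split at two <;> omega
  · rw [hj, ← hk'] at same
    have := same l hl
    simp only [dentPt, holePt] at this
    split at this <;> split at this <;> omega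
  · rw [← hk, hj'] at same
    have := same l hl
    simp only [dentPt, holePt] at this
    split at this <;> split at this <;> omega
  · rw [← hk, ← hk'] at two
    simp only [holePt] at two
    split at two <;> omega

lemma hole_core (k : Fin m) (i : Fin d) (s : Bool) :
    holePt m k + step i s ∈ bumpy m ∧ holePt m k + step i s ∉ holes m := by
  refine ⟨(mem_bumpy m).2 (Or.inl ⟨fun l => ?_, fun j hj => ?_⟩), ?_⟩
  · simp only [Pi.add_apply, step_apply, holePt, side]
    have := k.2
    cases s <;> split <;> split <;> simp <;> omega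
  · have := congrFun hj j
    simp only [Pi.add_apply, step_apply, holePt, dentPt, if_true] at this
    cases s <;> simp only [if_true, Bool.false_eq_true, if_false] at this <;>
      split at this <;> split at this <;> omega
  · rw [mem_holes]
    rintro ⟨k', hk'⟩
    have := congrFun hk' i
    simp only [Pi.add_apply, step_apply, holePt, if_true] at this
    cases s <;> simp only [if_true, Bool.false_eq_true, if_false] at this <;>
      split at this <;> omega

lemma dent_nbr (j i : Fin d) (s : Bool) (h : ¬(i = j ∧ s = false)) :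
    dentPt j + step i s ∈ bumpy (d := d) m := by
  refine (mem_bumpy m).2 (Or.inl ⟨fun l => ?_, fun j' hj' => ?_⟩)
  · simp only [Pi.add_apply, step_apply, dentPt, side]
    by_cases hlj : l = j <;> by_cases hli : l = i <;> cases s <;> simp [hlj, hli] <;>
      first | omega | (subst hlj; subst hli; simp_all)
  · have := congrFun hj' j'
    simp only [Pi.add_apply, step_apply, dentPt, if_true] at this
    cases s <;> simp only [if_true, Bool.false_eq_true, if_false] at this <;>
      split at this <;> split at this <;> first | omega | skip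
    all_goals
      have := congrFun hj' i
      simp only [Pi.add_apply, step_apply, dentPt, if_true] at this
      simp_all

lemma bump_nbr (j : Fin d) :
    dentPt j + (side m : ℤ) • Pi.single j 1 + step j false ∈ bumpy (d := d) m ∧
      dentPt j + (side m : ℤ) • Pi.single j 1 + step j false ∉ holes m := by
  set y : Grid d := dentPt j + (side m : ℤ) • Pi.single j 1 + step j false with hy
  have hyl : ∀ l, y l = if l = j then (side m : ℤ) - 1 else 4 := by
    intro l
    rw [hy]
    by_cases h : l = j <;> simp [dentPt, step_apply, h]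
    ring
  refine ⟨(mem_bumpy m).2 (Or.inl ⟨fun l => ?_, fun j' hj' => ?_⟩), ?_⟩
  · rw [hyl]; simp only [side]; split <;> omega
  · have := congrFun hj' j'
    rw [hyl] at this
    simp only [dentPt, side, if_true] at this
    split at this <;> omega
  · rw [mem_holes]
    rintro ⟨k, hk⟩
    have := congrFun hk j
    rw [hyl] at this
    simp only [holePt, side, if_true] at this
    split at this <;> omega

/-- The bumpy box with `m` holes, as a shape. -/
noncomputable def boxShape (hd : 2 ≤ d) : Shape d (side m) where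
  R := bumpy m
  H := holes m
  p := dentPt
  H_sub x hx := by
    obtain ⟨k, rfl⟩ := (mem_holes m).1 hx
    refine (mem_bumpy m).2 (Or.inl ⟨fun l => ?_, fun j hj => ?_⟩)
    · simp only [holePt, side]; have := k.2; split <;> omega
    · have := congrFun hj j
      simp only [holePt, dentPt, if_true] at this
      split at this <;> omega
  decomp := bumpy_decomp m
  unique q q' r hr r' hr' := bumpy_unique m q q' r hr r' hr'
  nbr h hh r hr := by
    obtain ⟨k, rfl⟩ := (mem_holes m).1 hh
    rcases (mem_bumpy m).1 hr with hr | ⟨j, rfl⟩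
    · obtain ⟨s, h1, h2⟩ := core_nbr m hd hr ⟨0, by omega⟩
      exact ⟨_, h1, h2, hole_core m k _ _⟩
    · exact ⟨_, (bump_nbr m j).1, (bump_nbr m j).2, hole_core m k _ _⟩
  dent := dent_notMem m
  key j r hr hne := by
    rcases (mem_bumpy m).1 hr with hr | ⟨i, rfl⟩
    · obtain ⟨i, hi⟩ : ∃ i : Fin d, i ≠ j := by
        by_contra hcon
        push Not at hcon
        have := (hcon ⟨0, by omega⟩).trans (hcon ⟨1, by omega⟩).symm
        simp at this
      obtain ⟨s, h1, -⟩ := core_nbr m hd hr i
      exact ⟨_, h1, dent_nbr m j i s fun h => hi h.1⟩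
    · have hi : i ≠ j := fun h => hne (by rw [h])
      exact ⟨_, (bump_nbr m i).1, dent_nbr m j i false fun h => hi h.1⟩

end Box

/-- If finitely many tiles of equal size have a common tiling of `ℤ^d` (`d ≥ 2`) and no common
periodic one, then some single tile tiles `ℤ^d` but only aperiodically. -/
theorem exists_aperiodic_tile_of_system {d : ℕ} (hd : 2 ≤ d) {ι : Type*} [Fintype ι]
    (F : ι → Finset (Grid d)) (i₀ : ι) (hne : (F i₀).Nonempty)
    (hcard : ∀ i, (F i).card = (F i₀).card)
    (hsol : ∃ A, ∀ i, Tiles (F i) A)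
    (hno : ∀ A, (∀ i, Tiles (F i) A) → ¬ IsPeriodic A) :
    ∃ F' : Finset (Grid d), (∃ A, Tiles F' A) ∧ ∀ A, Tiles F' A → ¬ IsPeriodic A := by
  classical
  set m := Fintype.card ι
  let e : Fin m ≃ ι := (Fintype.equivFin ι).symm
  let S := boxShape (d := d) m hd
  let T : Grid d → Finset (Grid d) := fun r =>
    if h : ∃ k : Fin m, holePt m k = r then F (e h.choose) else F i₀
  have hL : 0 < side m := by simp [side]
  have hTF : ∀ r, ∃ i, T r = F i := by
    intro r
    simp only [T]
    split
    · exact ⟨_, rfl⟩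
    · exact ⟨i₀, rfl⟩
  refine ⟨stack S T, ?_, fun A' hA' hper => ?_⟩
  · obtain ⟨A, hA⟩ := hsol
    exact ⟨_, stack_tiles S T fun r _ => by obtain ⟨i, hi⟩ := hTF r; rw [hi]; exact hA i⟩
  · obtain ⟨A, hper', hA⟩ := exists_periodic_of_stack S T hL (F i₀) hne
      (fun r _ hr => dif_neg fun h => hr ((mem_holes m).2 h))
      (fun r _ => by obtain ⟨i, hi⟩ := hTF r; rw [hi]; exact hcard i) hA' hper
    refine hno A (fun i => ?_) hper'
    obtain ⟨k, rfl⟩ := e.surjective i
    have hk : holePt (d := d) m k ∈ S.R := S.H_sub ((mem_holes m).2 ⟨k, rfl⟩)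
    have hT : T (holePt m k) = F (e k) := by
      have h : ∃ k' : Fin m, holePt (d := d) m k' = holePt m k := ⟨k, rfl⟩
      simp only [T, dif_pos h]
      congr 2
      have := congrFun h.choose_spec ⟨0, by omega⟩
      simp only [holePt, if_true] at this
      exact Fin.ext (by omega)
    rw [← hT]
    exact hA _ hk

end Vale.Agent.P043.Aperiodic
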