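import Mathlib
import Vale.Agent.P043.Defs
import Vale.Agent.P043.Aperiodic.Defs
import Vale.Agent.P043.Aperiodic.Stack

/-! Tilings of an abelian group, lifting of systems along a surjection `ℤ^d → G`, and raising the
dimension. -/

namespace Vale.Agent.P043.Aperiodic

open Vale.Agent.P043

variable {G : Type*} [AddCommGroup G]

/-- `A` is invariant under `N G` for some `N ≥ 1`. -/
def IsPeriodicIn (A : Set G) : Prop :=
  ∃ N : ℕ, 0 < N ∧ ∀ a z : G, a + (N : ℤ) • z ∈ A ↔ a ∈ A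

/-- If `A` tiles a tile and the tile with one point moved by `v`, then `A + v = A`. -/
theorem mem_add_iff_of_moved [DecidableEq G] {F : Finset G} {A : Set G} {g v : G} (hg : g ∈ F)
    (hv : g + v ∉ F.erase g) (h : Tiling F A) (h' : Tiling (insert (g + v) (F.erase g)) A)
    (a : G) : a + v ∈ A ↔ a ∈ A := by
  obtain ⟨f, ⟨hf, hfA⟩, hu⟩ := h (a + g + v)
  obtain ⟨f', ⟨hf', hf'A⟩, hu'⟩ := h' (a + g + v)
  have e1 : a + g + v - g = a + v := by abel
  have e2 : a + g + v - (g + v) = a := by abel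
  constructor
  · intro ha
    have hfg : g = f := hu g ⟨hg, by rwa [e1]⟩
    rcases Finset.mem_insert.1 hf' with rfl | hf'
    · rwa [e2] at hf'A
    · have := hu f' ⟨Finset.mem_of_mem_erase hf', hf'A⟩
      exact absurd (this.trans hfg.symm) (Finset.ne_of_mem_erase hf')
  · intro ha
    by_cases hfg : f = g
    · rw [hfg, e1] at hfA; exact hfA
    · have h1 := hu' f ⟨Finset.mem_insert_of_mem (Finset.mem_erase.2 ⟨hfg, hf⟩), hfA⟩
      have h2 := hu' (g + v) ⟨Finset.mem_insert_self _ _, by rwa [e2]⟩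
      exact absurd (h1.trans h2.symm ▸ Finset.mem_erase.2 ⟨hfg, hf⟩) hv

/-- A system of tiles in a quotient `G` of `ℤ^d` with a common solution and no periodic one gives
a single aperiodic tile of `ℤ^d`. -/
theorem exists_aperiodic_tile_of_surjection {d : ℕ} (hd : 2 ≤ d) (π : Grid d →+ G)
    (hπ : Function.Surjective π) (V : Finset (Grid d))
    (hV : ∀ v ∈ V, π v = 0) (hker : ∀ x, π x = 0 → x ∈ AddSubgroup.closure (V : Set (Grid d)))
    {ι : Type*} [Fintype ι] (F : ι → Finset G) (i₀ : ι) (hne : (F i₀).Nonempty)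
    (hcard : ∀ i, (F i).card = (F i₀).card)
    (hsol : ∃ A, ∀ i, Tiling (F i) A)
    (hno : ∀ A, (∀ i, Tiling (F i) A) → ¬ IsPeriodicIn A) :
    ∃ F' : Finset (Grid d), (∃ A, Tiles F' A) ∧ ∀ A, Tiles F' A → ¬ IsPeriodic A := by
  classical
  obtain ⟨s, hs⟩ := hπ.hasRightInverse
  obtain ⟨g, hg⟩ := hne
  let B : ι → Finset (Grid d) := fun i => (F i).image s
  let E : ι ⊕ ↥V → Finset (Grid d) :=
    Sum.elim B fun v => insert (s g + v.1) ((B i₀).erase (s g))
  have hgB : s g ∈ B i₀ := Finset.mem_image_of_mem s hg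
  have hnot : ∀ v ∈ V, s g + v ∉ (B i₀).erase (s g) := by
    intro v hv h
    obtain ⟨hne', h⟩ := Finset.mem_erase.1 h
    obtain ⟨f, -, hf⟩ := Finset.mem_image.1 h
    apply hne'
    rw [← hf, show f = g by rw [← hs f, hf, map_add, hV v hv, hs, add_zero]]
  have cardB : ∀ i, (B i).card = (B i₀).card := fun i => by
    simp only [B, Finset.card_image_of_injective _ hs.injective, hcard i]
  refine exists_aperiodic_tile_of_system hd E (Sum.inl i₀) ⟨_, hgB⟩ ?_ ?_ ?_
  · rintro (i | ⟨v, hv⟩)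
    · exact cardB i
    · show (insert (s g + v) ((B i₀).erase (s g))).card = (B i₀).card
      rw [Finset.card_insert_of_notMem (hnot v hv), Finset.card_erase_add_one hgB]
  · obtain ⟨A, hA⟩ := hsol
    refine ⟨π ⁻¹' A, ?_⟩
    -- any set of representatives of a tile is tiled by the preimage
    have key : ∀ (i : ι) (R : Finset (Grid d)), Set.InjOn π R → R.image π = F i →
        Tiles R (π ⁻¹' A) := by
      intro i R hinj hR x
      obtain ⟨f, ⟨hf, hfA⟩, hu⟩ := hA i (π x)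
      rw [← hR] at hf
      obtain ⟨r, hr, rfl⟩ := Finset.mem_image.1 hf
      refine ⟨r, ⟨hr, by simpa using hfA⟩, fun r' ⟨hr', hr'A⟩ => ?_⟩
      exact hinj hr' hr (hu (π r') ⟨hR ▸ Finset.mem_image_of_mem π hr', by simpa using hr'A⟩)
    have himg : ∀ i, (B i).image π = F i := fun i => by
      simp [B, Finset.image_image, hs.comp_eq_id]
    have hinj : ∀ i, Set.InjOn π (B i : Set (Grid d)) := by
      intro i x hx y hy h
      obtain ⟨a, -, rfl⟩ := Finset.mem_image.1 hx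
      obtain ⟨b, -, rfl⟩ := Finset.mem_image.1 hy
      rw [hs, hs] at h
      rw [h]
    rintro (i | ⟨v, hv⟩)
    · exact key i _ (hinj i) (himg i)
    · have e : π (s g + v) = π (s g) := by rw [map_add, hV v hv, add_zero]
      have him : (insert (s g + v) ((B i₀).erase (s g))).image π = F i₀ := by
        rw [Finset.image_insert, e, ← Finset.image_insert, Finset.insert_erase hgB, himg]
      refine key i₀ _ ?_ him
      show Set.InjOn π ↑(insert (s g + v) ((B i₀).erase (s g)))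
      rw [Finset.coe_insert, Set.injOn_insert (hnot v hv)]
      refine ⟨(hinj i₀).mono (Finset.coe_subset.2 (Finset.erase_subset _ _)), ?_⟩
      rw [e]
      rintro ⟨y, hy, hyg⟩
      obtain ⟨hne', hy⟩ := Finset.mem_erase.1 hy
      exact hne' (hinj i₀ hy hgB hyg)
  · rintro A hA ⟨N, hN, hper⟩
    let St : AddSubgroup (Grid d) :=
      { carrier := {v | ∀ a, a + v ∈ A ↔ a ∈ A}
        zero_mem' := fun a => by simp
        add_mem' := fun {u v} hu hv a => by rw [← add_assoc, hv, hu]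
        neg_mem' := fun {v} hv a => by
          have := hv (a + -v); rwa [neg_add_cancel_right, Iff.comm] at this }
    have hinv : ∀ a b, π a = π b → (a ∈ A ↔ b ∈ A) := by
      intro a b hab
      have hle : AddSubgroup.closure (V : Set (Grid d)) ≤ St := (AddSubgroup.closure_le _).2
        fun v hv => mem_add_iff_of_moved hgB (hnot v hv) (hA (Sum.inl i₀)) (hA (Sum.inr ⟨v, hv⟩))
      have := hle (hker (a - b) (by rw [map_sub, hab, sub_self])) b
      rwa [add_sub_cancel] at this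
    have hmem : ∀ x, π x ∈ π '' A ↔ x ∈ A :=
      fun x => ⟨fun ⟨y, hy, he⟩ => (hinv y x he).1 hy, fun hx => ⟨x, hx, rfl⟩⟩
    refine hno (π '' A) (fun i x => ?_) ⟨N, hN, fun a z => ?_⟩
    · obtain ⟨x, rfl⟩ := hπ x
      obtain ⟨r, ⟨hr, hrA⟩, hu⟩ := hA (Sum.inl i) x
      obtain ⟨f, hf, rfl⟩ := Finset.mem_image.1 (show r ∈ B i from hr)
      refine ⟨f, ⟨hf, by rwa [← hs f, ← map_sub, hmem]⟩, fun f' ⟨hf', hf'A⟩ => ?_⟩
      rw [← hs f', ← map_sub, hmem] at hf'A
      exact hs.injective (hu (s f') ⟨Finset.mem_image_of_mem s hf', hf'A⟩)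
    · obtain ⟨a, rfl⟩ := hπ a
      obtain ⟨z, rfl⟩ := hπ z
      rw [← map_zsmul, ← map_add, hmem, hmem]
      exact hper a z

/-- An aperiodic tile in dimension `d` gives one in dimension `d + 1`. -/
theorem exists_aperiodic_tile_succ {d : ℕ}
    (h : ∃ F : Finset (Grid d), (∃ A, Tiles F A) ∧ ∀ A, Tiles F A → ¬ IsPeriodic A) :
    ∃ F : Finset (Grid (d + 1)), (∃ A, Tiles F A) ∧ ∀ A, Tiles F A → ¬ IsPeriodic A := by
  classical
  obtain ⟨F, ⟨A, hA⟩, hno⟩ := h
  have tail_sub : ∀ (x : Grid (d + 1)) (f : Grid d),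
      Fin.tail (x - Fin.cons 0 f) = Fin.tail x - f := fun x f => by
    funext i; simp [Fin.tail]
  refine ⟨F.image (Fin.cons 0), ⟨{x | Fin.tail x ∈ A}, fun x => ?_⟩, ?_⟩
  · obtain ⟨f, ⟨hf, hfA⟩, hu⟩ := hA (Fin.tail x)
    refine ⟨Fin.cons 0 f, ⟨Finset.mem_image_of_mem _ hf, by simpa [tail_sub] using hfA⟩, ?_⟩
    rintro y ⟨hy, hyA⟩
    obtain ⟨f', hf', rfl⟩ := Finset.mem_image.1 hy
    rw [hu f' ⟨hf', by simpa [tail_sub] using hyA⟩]
  · rintro B hB ⟨L, hL, hper⟩
    have cons_sub : ∀ x f : Grid d, (Fin.cons 0 x : Grid (d + 1)) - Fin.cons 0 f =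
        Fin.cons 0 (x - f) := fun x f => by
      funext i; refine Fin.cases ?_ ?_ i <;> simp
    refine hno {a | (Fin.cons 0 a : Grid (d + 1)) ∈ B} (fun x => ?_) ⟨L, hL, fun a z => ?_⟩
    · obtain ⟨y, ⟨hy, hyB⟩, hu⟩ := hB (Fin.cons 0 x)
      obtain ⟨f, hf, rfl⟩ := Finset.mem_image.1 hy
      rw [cons_sub] at hyB
      refine ⟨f, ⟨hf, hyB⟩, fun f' ⟨hf', hf'B⟩ => ?_⟩
      exact Fin.cons_right_injective (α := fun _ : Fin (d + 1) => ℤ) 0
        (hu (Fin.cons 0 f') ⟨Finset.mem_image_of_mem _ hf', by rw [cons_sub]; exact hf'B⟩)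
    · have e : (Fin.cons 0 (a + (L : ℤ) • z) : Grid (d + 1)) =
          Fin.cons 0 a + (L : ℤ) • Fin.cons 0 z := by
        funext i; refine Fin.cases ?_ ?_ i <;> simp
      show Fin.cons 0 (a + (L : ℤ) • z) ∈ B ↔ _
      rw [e]; exact hper _ _

/-- An aperiodic tile in dimension `d` gives one in every larger dimension. -/
theorem exists_aperiodic_tile_of_le {d e : ℕ} (hde : d ≤ e)
    (h : ∃ F : Finset (Grid d), (∃ A, Tiles F A) ∧ ∀ A, Tiles F A → ¬ IsPeriodic A) :
    ∃ F : Finset (Grid e), (∃ A, Tiles F A) ∧ ∀ A, Tiles F A → ¬ IsPeriodic A := by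
  induction e, hde using Nat.le_induction with
  | base => exact h
  | succ n _ ih => exact exists_aperiodic_tile_succ ih

/-- A system in `ℤ² × H` with solutions but no periodic one gives an aperiodic tile of `ℤ⁴`. -/
theorem exists_aperiodic_tile_of_quotient {H : Type*} [AddCommGroup H] [Fintype H]
    (N : ℕ) (_hN : 0 < N) (φ : ℤ × ℤ →+ H) (hφ : Function.Surjective φ)
    (hker : ∀ t, φ t = 0 ↔ (N : ℤ) ∣ t.1 ∧ (N : ℤ) ∣ t.2)
    {ι : Type*} [Fintype ι] (F : ι → Finset ((ℤ × ℤ) × H)) (i₀ : ι)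
    (hne : (F i₀).Nonempty) (hcard : ∀ i, (F i).card = (F i₀).card)
    (hsol : ∃ A, ∀ i, Tiling (F i) A)
    (hno : ∀ A, (∀ i, Tiling (F i) A) → ∀ P : ℕ, 0 < P →
      ¬ ∀ (x v : ℤ × ℤ) (h : H), ((x + (P : ℤ) • v, h) ∈ A ↔ (x, h) ∈ A)) :
    ∃ F' : Finset (Grid 4), (∃ A, Tiles F' A) ∧ ∀ A, Tiles F' A → ¬ IsPeriodic A := by
  let π : Grid 4 →+ (ℤ × ℤ) × H :=
    { toFun := fun x => ((x 0, x 1), φ (x 2, x 3))
      map_zero' := by simp [show ((0 : ℤ), (0 : ℤ)) = 0 from rfl]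
      map_add' := fun x y => by simp [← φ.map_add] }
  refine exists_aperiodic_tile_of_surjection (by norm_num) π ?_
    {(N : ℤ) • Pi.single 2 1, (N : ℤ) • Pi.single 3 1} ?_ ?_ F i₀ hne hcard hsol ?_
  · rintro ⟨⟨a, b⟩, h⟩
    obtain ⟨⟨c, e⟩, rfl⟩ := hφ h
    exact ⟨![a, b, c, e], by simp [π]⟩
  · intro v hv
    simp only [Finset.mem_insert, Finset.mem_singleton] at hv
    rcases hv with rfl | rfl <;>
      simp [π, hker, show ((0 : ℤ), (0 : ℤ)) = 0 from rfl]
  · intro x hx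
    simp only [π, AddMonoidHom.coe_mk, ZeroHom.coe_mk, Prod.mk_eq_zero] at hx
    obtain ⟨⟨h0, h1⟩, h23⟩ := hx
    obtain ⟨⟨a, ha⟩, b, hb⟩ := (hker _).1 h23
    have e : x = a • ((N : ℤ) • Pi.single 2 1) + b • ((N : ℤ) • Pi.single 3 1) := by
      funext i
      fin_cases i <;> simp at ha hb ⊢ <;> simp [h0, h1, ha, hb, mul_comm]
    rw [e]
    refine add_mem (zsmul_mem (AddSubgroup.subset_closure (by simp)) _)
      (zsmul_mem (AddSubgroup.subset_closure (by simp)) _)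
  · rintro A hA ⟨P, hP, hper⟩
    refine hno A hA P hP fun x v h => ?_
    simpa using hper (x, h) (v, 0)

end Vale.Agent.P043.Aperiodic
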