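import Vale.Agent.P043.Aperiodic.Defs

/-! The finite group is a quotient of `ℤ²`. -/

namespace Vale.Agent.P043.Aperiodic

/-- For distinct odd primes the finite group is a quotient of `ℤ²` by `N ℤ²`. -/
theorem exists_quotient_map {n : ℕ} (p : Fin n → ℕ) (hp : ∀ i, (p i).Prime)
    (hinj : Function.Injective p) (h2 : ∀ i, p i ≠ 2) :
    ∃ (N : ℕ) (_ : 0 < N) (φ : ℤ × ℤ →+ Hgrp p), Function.Surjective φ ∧
      ∀ t, φ t = 0 ↔ (N : ℤ) ∣ t.1 ∧ (N : ℤ) ∣ t.2 := by
  let q : Option (Fin n) → ℕ := fun o => o.elim 4 p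
  have hco : Pairwise fun a b => Nat.Coprime (q a) (q b) := by
    have h4 : ∀ i, Nat.Coprime 4 (p i) := fun i => by
      rw [show (4 : ℕ) = 2 ^ 2 by norm_num]
      exact Nat.Coprime.pow_left _ ((Nat.coprime_primes Nat.prime_two (hp i)).2 (h2 i).symm)
    rintro (_ | i) (_ | j) h
    · exact absurd rfl h
    · exact h4 j
    · exact (h4 i).symm
    · exact (Nat.coprime_primes (hp i) (hp j)).2 fun e => h (congrArg some (hinj e))
  let e := ZMod.prodEquivPi q hco
  let N := ∏ o, q o
  have hN : 0 < N := Finset.prod_pos fun o _ => by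
    cases o with
    | none => exact Nat.succ_pos 3
    | some i => exact (hp i).pos
  let g : ℤ →+* ((o : Option (Fin n)) → ZMod (q o)) := e.toRingHom.comp (Int.castRingHom (ZMod N))
  have hg : Function.Surjective g := e.surjective.comp ZMod.intCast_surjective
  have hgi : ∀ (t : ℤ) o, g t o = (t : ZMod (q o)) := fun t o => by
    simp [g, show g t = (t : (o : Option (Fin n)) → ZMod (q o)) from map_intCast g t]
  let φ : ℤ × ℤ →+ Hgrp p :=
    { toFun := fun t => (((t.1 : ZMod 4), (t.2 : ZMod 4)), fun i => (t.1 : ZMod (p i)),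
        fun i => (t.2 : ZMod (p i)))
      map_zero' := by ext <;> simp
      map_add' := fun s t => by ext <;> simp }
  have hzero : ∀ t : ℤ, (N : ℤ) ∣ t ↔ (t : ZMod 4) = 0 ∧ ∀ i, (t : ZMod (p i)) = 0 := by
    intro t
    rw [← ZMod.intCast_zmod_eq_zero_iff_dvd, ← e.map_eq_zero_iff]
    constructor
    · intro h
      have h' : g t = 0 := h
      exact ⟨(hgi t none).symm.trans (congrFun h' none),
        fun i => (hgi t (some i)).symm.trans (congrFun h' (some i))⟩
    · rintro ⟨h0, h1⟩
      show g t = 0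
      funext o
      rw [hgi]
      cases o with
      | none => exact h0
      | some i => exact h1 i
  refine ⟨N, hN, φ, ?_, ?_⟩
  · rintro ⟨⟨a, b⟩, u, v⟩
    obtain ⟨t, ht⟩ := hg fun o => match o with
      | none => a
      | some i => u i
    obtain ⟨s, hs⟩ := hg fun o => match o with
      | none => b
      | some i => v i
    refine ⟨(t, s), ?_⟩
    refine Prod.ext (Prod.ext ?_ ?_) (Prod.ext (funext fun i => ?_) (funext fun i => ?_))
    · exact (hgi t none).symm.trans (congrFun ht none)
    · exact (hgi s none).symm.trans (congrFun hs none)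
    · exact (hgi t (some i)).symm.trans (congrFun ht (some i))
    · exact (hgi s (some i)).symm.trans (congrFun hs (some i))
  · intro t
    rw [hzero, hzero]
    simp only [φ, AddMonoidHom.coe_mk, ZeroHom.coe_mk, Prod.ext_iff, Prod.fst_zero, Prod.snd_zero,
      funext_iff, Pi.zero_apply]
    tauto

end Vale.Agent.P043.Aperiodic
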