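import Vale.Agent.P043.Aperiodic.Defs

/-! Tiles in the finite group whose common complements are the slices, and tiles reading bits. -/

namespace Vale.Agent.P043.Aperiodic

open Function

/-- The even gadget cells. -/
abbrev Ev : Type := {g : Gad // evenG g = true}

/-- The zero cell. -/
def ev0 : Ev := ⟨(0, 0), by decide⟩

lemma evenG_sub : ∀ a b : Gad, evenG (a - b) = (evenG a == evenG b) := by decide

/-- Exactly one even translate of a cell falls in a good pair. -/
lemma existsUnique_even {z : Gad × Gad} (hz : Good z) (γ : Gad) :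
    ∃! κ : Ev, γ - κ.1 = z.1 ∨ γ - κ.1 = z.2 := by
  obtain ⟨h1, h2⟩ := hz
  refine ⟨⟨if evenG γ = true then γ - z.1 else γ - z.2, ?_⟩, ?_, ?_⟩
  · split_ifs with h <;> simp_all [evenG_sub]
  · dsimp only; split_ifs <;> simp
  · rintro ⟨κ, hκ⟩ (h | h) <;> refine Subtype.ext ?_ <;> dsimp only at h ⊢
    · have : evenG γ = true := by
        have := evenG_sub γ κ
        rw [h, h1, hκ] at this
        simpa using this.symm
      rw [if_pos this, ← h, sub_sub_cancel]
    · have : ¬ evenG γ = true := by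
        have := evenG_sub γ κ
        rw [h, h2, hκ] at this
        simp_all
      rw [if_neg this, ← h, sub_sub_cancel]

/-- A tiling by the range of an injective map. -/
lemma tiling_image_iff {G P : Type*} [AddCommGroup G] [DecidableEq G] [Fintype P] (Φ : P → G)
    (hΦ : Injective Φ) (A : Set G) :
    Tiling (Finset.univ.image Φ) A ↔ ∀ x, ∃! q, x - Φ q ∈ A := by
  refine forall_congr' fun x => ?_
  constructor
  · rintro ⟨f, ⟨hf, hfA⟩, hu⟩
    obtain ⟨q, -, rfl⟩ := Finset.mem_image.1 hf
    exact ⟨q, hfA, fun q' hq' =>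
      hΦ (hu _ ⟨Finset.mem_image_of_mem _ (Finset.mem_univ _), hq'⟩)⟩
  · rintro ⟨q, hq, hu⟩
    refine ⟨Φ q, ⟨Finset.mem_image_of_mem _ (Finset.mem_univ _), hq⟩, ?_⟩
    rintro f ⟨hf, hfA⟩
    obtain ⟨q', -, rfl⟩ := Finset.mem_image.1 hf
    rw [hu q' hfA]

/-- Points in a plane, any two with the same `y` or the same `y - k`, all share one of them. -/
lemma common_of_pairwise {α R : Type*} [AddCommGroup R] (s : Set α) (k y : α → R)
    (h : ∀ a ∈ s, ∀ a' ∈ s, y a - y a' = 0 ∨ y a - y a' = k a - k a') :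
    ∃ (b : R) (σ : Bool), ∀ a ∈ s, y a = b + if σ then k a else 0 := by
  classical
  by_cases hy : ∃ a ∈ s, ∃ a' ∈ s, y a ≠ y a'
  · obtain ⟨a, ha, a', ha', hne⟩ := hy
    have e : y a - k a = y a' - k a' := by
      rcases h a ha a' ha' with h' | h'
      · exact absurd (sub_eq_zero.1 h') hne
      · rw [sub_eq_sub_iff_sub_eq_sub, h']
    refine ⟨y a - k a, true, fun c hc => ?_⟩
    by_cases hca : y c = y a
    · rcases h c hc a' ha' with h' | h'
      · exact absurd (hca.symm.trans (sub_eq_zero.1 h')) hne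
      · rw [e, if_pos rfl, ← sub_eq_iff_eq_add, sub_eq_sub_iff_sub_eq_sub]; exact h'
    · rcases h c hc a ha with h' | h'
      · exact absurd (sub_eq_zero.1 h') hca
      · rw [if_pos rfl, ← sub_eq_iff_eq_add, sub_eq_sub_iff_sub_eq_sub]; exact h'
  · by_cases hs : s.Nonempty
    · obtain ⟨a, ha⟩ := hs
      refine ⟨y a, false, fun c hc => ?_⟩
      simp only [Bool.false_eq_true, if_false, add_zero]
      by_contra hne
      exact hy ⟨c, hc, a, ha, hne⟩
    · exact ⟨0, false, fun c hc => absurd ⟨c, hc⟩ hs⟩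

variable {n : ℕ} (p : Fin n → ℕ) [∀ i, NeZero (p i)]

/-- The parametrisation of the column tile. -/
def basePar (q : Ev × Col p) : Hgrp p := (q.1.1, 0, q.2)

omit [∀ i, NeZero (p i)] in
lemma basePar_injective : Injective (basePar p) := by
  rintro ⟨⟨a, ha⟩, t⟩ ⟨⟨a', ha'⟩, t'⟩ h
  simp only [basePar, Prod.mk.injEq] at h
  obtain ⟨rfl, -, rfl⟩ := h
  rfl

lemma baseTile_eq : baseTile p = Finset.univ.image (basePar p) := by
  ext ⟨g, k, y⟩
  simp only [baseTile, basePar, Finset.mem_filter, Finset.mem_univ, true_and, Finset.mem_image,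
    Prod.mk.injEq]
  constructor
  · rintro ⟨hg, rfl⟩; exact ⟨(⟨g, hg⟩, y), rfl, rfl, rfl⟩
  · rintro ⟨⟨⟨g', hg⟩, y'⟩, rfl, rfl, rfl⟩; exact ⟨hg, rfl⟩

lemma card_image_par (Φ : Ev × Col p → Hgrp p) (hΦ : Injective Φ) :
    (Finset.univ.image Φ).card = (baseTile p).card := by
  rw [baseTile_eq, Finset.card_image_of_injective _ hΦ,
    Finset.card_image_of_injective _ (basePar_injective p)]

omit [∀ i, NeZero (p i)] in
lemma sub_mem_slice {z : Gad × Gad} {b : Col p} {σ : Fin n → Bool} {x f : Hgrp p} :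
    x - f ∈ slice z b σ ↔ (x.1 - f.1 = z.1 ∨ x.1 - f.1 = z.2) ∧ ∀ i,
      x.2.2 i - f.2.2 i = b i + if σ i then x.2.1 i - f.2.1 i else 0 :=
  Iff.rfl

lemma slice_tiles_base {z : Gad × Gad} (hz : Good z) (b : Col p) (σ : Fin n → Bool) :
    Tiling (baseTile p) (slice z b σ) := by
  rw [baseTile_eq, tiling_image_iff _ (basePar_injective p)]
  intro x
  obtain ⟨κ, hκ, hu⟩ := existsUnique_even hz x.1
  refine ⟨(κ, fun i => x.2.2 i - (b i + if σ i then x.2.1 i else 0)), ?_, ?_⟩
  · exact (sub_mem_slice p).2 ⟨hκ, fun i => by simp [basePar]⟩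
  · rintro ⟨κ', t⟩ h
    obtain ⟨h1, h2⟩ := (sub_mem_slice p).1 h
    refine Prod.ext (hu κ' h1) (funext fun i => ?_)
    have := h2 i
    simp only [basePar, Pi.zero_apply, sub_zero] at this
    show t i = x.2.2 i - _
    linear_combination -this

/-- The tile excluding a difference between two cells of the same parity. -/
def cellPar (d : Hgrp p) (q : Ev × Col p) : Hgrp p :=
  (q.1.1, (if q.1.1 = d.1 then d.2.1 else 0), q.2)

omit [∀ i, NeZero (p i)] in
lemma cellPar_injective (d : Hgrp p) : Injective (cellPar p d) := by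
  rintro ⟨⟨a, ha⟩, t⟩ ⟨⟨a', ha'⟩, t'⟩ h
  simp only [cellPar, Prod.mk.injEq] at h
  obtain ⟨rfl, -, rfl⟩ := h
  rfl

lemma slice_tiles_cell (d : Hgrp p) {z : Gad × Gad} (hz : Good z) (b : Col p)
    (σ : Fin n → Bool) : Tiling (Finset.univ.image (cellPar p d)) (slice z b σ) := by
  rw [tiling_image_iff _ (cellPar_injective p d)]
  intro x
  obtain ⟨κ, hκ, hu⟩ := existsUnique_even hz x.1
  set k' : Col p := if κ.1 = d.1 then d.2.1 else 0 with hk'
  refine ⟨(κ, fun i => x.2.2 i - (b i + if σ i then x.2.1 i - k' i else 0)), ?_, ?_⟩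
  · exact (sub_mem_slice p).2 ⟨hκ, fun i => by simp [cellPar, ← hk']⟩
  · rintro ⟨κ', t⟩ h
    obtain ⟨h1, h2⟩ := (sub_mem_slice p).1 h
    obtain rfl := hu κ' h1
    refine Prod.ext rfl (funext fun i => ?_)
    have := h2 i
    simp only [cellPar, ← hk'] at this
    show t i = x.2.2 i - _
    linear_combination -this

/-- The tile excluding a difference whose coordinate `i` lies on no line of slope `0` or `1`. -/
def linePar (d : Hgrp p) (i : Fin n) (q : Ev × Col p) : Hgrp p :=
  (q.1.1 + (if q.2 i = 1 then d.1 else 0),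
    update (fun j => if q.2 i = 1 then d.2.1 j else 0) i (q.2 i * d.2.1 i),
    update q.2 i (q.2 i * d.2.2 i))

omit [∀ i, NeZero (p i)] in
lemma linePar_injective (hp : ∀ i, (p i).Prime) (d : Hgrp p) (i : Fin n) (h0 : d.2.2 i ≠ 0) :
    Injective (linePar p d i) := by
  have : Fact (p i).Prime := ⟨hp i⟩
  rintro ⟨κ, t⟩ ⟨κ', t'⟩ h
  simp only [linePar, Prod.mk.injEq] at h
  obtain ⟨h1, -, h3⟩ := h
  have hi : t i = t' i := by
    have := congrFun h3 i
    simp only [update_self] at this
    exact mul_right_cancel₀ h0 this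
  simp only [hi, add_left_inj] at h1
  refine Prod.ext (Subtype.ext h1) (funext fun j => ?_)
  by_cases hj : j = i
  · subst hj; exact hi
  · simpa [hj] using congrFun h3 j

lemma slice_tiles_line (hp : ∀ i, (p i).Prime) (d : Hgrp p) (i : Fin n) (h0 : d.2.2 i ≠ 0)
    (h1 : d.2.2 i ≠ d.2.1 i) {z : Gad × Gad} (hz : Good z) (b : Col p) (σ : Fin n → Bool) :
    Tiling (Finset.univ.image (linePar p d i)) (slice z b σ) := by
  have : Fact (p i).Prime := ⟨hp i⟩
  rw [tiling_image_iff _ (linePar_injective p hp d i h0)]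
  intro x
  set e : ZMod (p i) := d.2.2 i - if σ i then d.2.1 i else 0 with he
  have hne : e ≠ 0 := by
    rw [he]; split <;> simp [sub_eq_zero, h0, h1]
  set C : ZMod (p i) := x.2.2 i - (b i + if σ i then x.2.1 i else 0) with hC
  set s : ZMod (p i) := C / e with hs
  have key : ∀ t : ZMod (p i), t = s ↔
      x.2.2 i - t * d.2.2 i = b i + if σ i then x.2.1 i - t * d.2.1 i else 0 := by
    intro t
    rw [hs, eq_div_iff hne, he, hC]
    cases σ i <;> simp only [Bool.false_eq_true, if_false, if_true] <;> constructor <;> intro h <;>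
      linear_combination -h
  obtain ⟨κ, hκ, hu⟩ := existsUnique_even hz (x.1 - if s = 1 then d.1 else 0)
  let k' : Col p := update (fun j => if s = 1 then d.2.1 j else 0) i (s * d.2.1 i)
  let t : Col p := update (fun j => x.2.2 j - (b j + if σ j then x.2.1 j - k' j else 0)) i s
  have hti : t i = s := update_self ..
  refine ⟨(κ, t), (sub_mem_slice p).2 ⟨?_, fun j => ?_⟩, ?_⟩
  · simp only [linePar, hti]
    rwa [sub_add_eq_sub_sub_swap]
  · simp only [linePar, hti]
    by_cases hj : j = i
    · subst hj; simp only [update_self]; exact (key s).1 rfl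
    · simp [t, k', hj]
  · rintro ⟨κ', t'⟩ h
    obtain ⟨hg, h2⟩ := (sub_mem_slice p).1 h
    simp only [linePar] at hg h2
    have hi : t' i = s := (key _).2 (by simpa only [update_self] using h2 i)
    simp only [hi, sub_add_eq_sub_sub_swap] at hg
    refine Prod.ext (hu κ' hg) (funext fun j => ?_)
    by_cases hj : j = i
    · subst hj; show t' j = t j; rw [hti, hi]
    · have := h2 j
      simp only [hi, update_of_ne hj] at this
      simp only [t, k', update_of_ne hj]
      linear_combination -this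

lemma exists_in_column {A : Set (Hgrp p)} (hB : Tiling (baseTile p) A) (g : Gad) (k : Col p) :
    ∃ a ∈ A, evenG a.1 = evenG g ∧ a.2.1 = k := by
  rw [baseTile_eq, tiling_image_iff _ (basePar_injective p)] at hB
  obtain ⟨⟨⟨κ, hκ⟩, t⟩, hq, -⟩ := hB (g, k, 0)
  refine ⟨_, hq, ?_, by simp [basePar]⟩
  simp [basePar, evenG_sub, hκ]

lemma cells_eq {A : Set (Hgrp p)}
    (hE : ∀ d, Tiling (Finset.univ.image (cellPar p d)) A) {a a' : Hgrp p} (ha : a ∈ A)
    (ha' : a' ∈ A) (he : evenG a.1 = evenG a'.1) : a.1 = a'.1 := by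
  by_contra hne
  obtain ⟨d, hd⟩ : ∃ d, d = a - a' := ⟨_, rfl⟩
  have hev : evenG d.1 = true := by simp [hd, evenG_sub, he]
  have hne' : d.1 ≠ 0 := by rw [hd]; exact sub_ne_zero.2 hne
  have e0 : cellPar p d (ev0, 0) = 0 := by
    have : ¬ ((0, 0) : Gad) = d.1 := fun h => hne' h.symm
    simp [cellPar, ev0, this]
  have e1 : cellPar p d (⟨d.1, hev⟩, d.2.2) = d := by simp [cellPar]
  have := ((tiling_image_iff _ (cellPar_injective p d) A).1 (hE d) a).unique
    (y₁ := (ev0, 0)) (y₂ := (⟨d.1, hev⟩, d.2.2))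
    (by rw [e0, sub_zero]; exact ha) (by rw [e1, hd, sub_sub_cancel]; exact ha')
  exact hne' (congrArg (fun q : Ev × Col p => q.1.1) this).symm

lemma lines_eq (hp : ∀ i, (p i).Prime) (i : Fin n) {A : Set (Hgrp p)}
    (hE : ∀ d : Hgrp p, d.2.2 i ≠ 0 → d.2.2 i ≠ d.2.1 i →
      Tiling (Finset.univ.image (linePar p d i)) A) :
    ∀ a ∈ A, ∀ a' ∈ A,
      a.2.2 i - a'.2.2 i = 0 ∨ a.2.2 i - a'.2.2 i = a.2.1 i - a'.2.1 i := by
  intro a ha a' ha'
  by_contra hne
  simp only [not_or] at hne
  have : Fact (p i).Prime := ⟨hp i⟩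
  obtain ⟨d, hd⟩ : ∃ d, d = a - a' := ⟨_, rfl⟩
  have h0 : d.2.2 i ≠ 0 := by rw [hd]; exact hne.1
  have h1 : d.2.2 i ≠ d.2.1 i := by rw [hd]; exact hne.2
  have e0 : linePar p d i (ev0, 0) = 0 := by
    refine Prod.ext ?_ (Prod.ext (funext fun j => ?_) (funext fun j => ?_))
    · simp [linePar, ev0]
    · by_cases hj : j = i
      · subst hj; simp [linePar]
      · simp [linePar]
    · by_cases hj : j = i
      · subst hj; simp [linePar]
      · simp [linePar]
  have e1 : linePar p d i (ev0, update d.2.2 i 1) = d := by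
    refine Prod.ext ?_ (Prod.ext (funext fun j => ?_) (funext fun j => ?_))
    · simp [linePar, ev0]
    · by_cases hj : j = i
      · subst hj; simp [linePar]
      · simp [linePar]
    · by_cases hj : j = i
      · subst hj; simp [linePar]
      · simp [linePar]
  have := ((tiling_image_iff _ (linePar_injective p hp d i h0) A).1 (hE d h0 h1) a).unique
    (y₁ := (ev0, 0)) (y₂ := (ev0, update d.2.2 i 1))
    (by rw [e0, sub_zero]; exact ha) (by rw [e1, hd, sub_sub_cancel]; exact ha')
  have := congrFun (congrArg Prod.snd this) i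
  simp at this

/-- A finite family of tiles whose common complements are exactly the slices. -/
theorem slice_system (hp : ∀ i, (p i).Prime) :
    ∃ S : Finset (Finset (Hgrp p)), (∀ E ∈ S, E.card = (baseTile p).card) ∧
      ∀ A : Set (Hgrp p), (∀ E ∈ S, Tiling E A) ↔ ∃ z b σ, Good z ∧ A = slice z b σ := by
  classical
  let bad : Finset (Hgrp p × Fin n) :=
    Finset.univ.filter fun x => x.1.2.2 x.2 ≠ 0 ∧ x.1.2.2 x.2 ≠ x.1.2.1 x.2
  refine ⟨insert (baseTile p) (Finset.univ.image (fun d => Finset.univ.image (cellPar p d)) ∪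
    bad.image fun x => Finset.univ.image (linePar p x.1 x.2)), ?_, fun A => ⟨fun hA => ?_, ?_⟩⟩
  · intro E hE
    simp only [Finset.mem_insert, Finset.mem_union, Finset.mem_image, Finset.mem_univ, true_and,
      bad, Finset.mem_filter] at hE
    rcases hE with rfl | ⟨d, rfl⟩ | ⟨⟨d, i⟩, ⟨h0, -⟩, rfl⟩
    · rfl
    · exact card_image_par p _ (cellPar_injective p d)
    · exact card_image_par p _ (linePar_injective p hp d i h0)
  swap
  · rintro ⟨z, b, σ, hz, rfl⟩ E hE
    simp only [Finset.mem_insert, Finset.mem_union, Finset.mem_image, Finset.mem_univ, true_and,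
      bad, Finset.mem_filter] at hE
    rcases hE with rfl | ⟨d, rfl⟩ | ⟨⟨d, i⟩, ⟨h0, h1⟩, rfl⟩
    · exact slice_tiles_base p hz b σ
    · exact slice_tiles_cell p d hz b σ
    · exact slice_tiles_line p hp d i h0 h1 hz b σ
  have hB := hA _ (Finset.mem_insert_self _ _)
  have cellsEq : ∀ a ∈ A, ∀ a' ∈ A, evenG a.1 = evenG a'.1 → a.1 = a'.1 :=
    fun a ha a' ha' he => cells_eq p (fun d => hA _ (Finset.mem_insert_of_mem
      (Finset.mem_union_left _ (Finset.mem_image.2 ⟨d, Finset.mem_univ _, rfl⟩)))) ha ha' he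
  have linesEq := fun i => lines_eq p hp i (A := A) fun d h0 h1 => hA _ (Finset.mem_insert_of_mem
      (Finset.mem_union_right _ (Finset.mem_image.2
        ⟨(d, i), Finset.mem_filter.2 ⟨Finset.mem_univ _, h0, h1⟩, rfl⟩)))
  choose b σ hbσ using fun i => common_of_pairwise A (fun a => a.2.1 i) (fun a => a.2.2 i)
    (linesEq i)
  obtain ⟨aE, haE, heE, -⟩ := exists_in_column p hB (0, 0) 0
  obtain ⟨aO, haO, heO, -⟩ := exists_in_column p hB (1, 0) 0
  have hEv : evenG aE.1 = true := by rw [heE]; decide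
  have hOd : evenG aO.1 = false := by rw [heO]; decide
  have sub : ∀ a ∈ A, a ∈ slice (aE.1, aO.1) b σ := by
    intro a ha
    refine ⟨?_, fun i => hbσ i a ha⟩
    cases he : evenG a.1
    · exact Or.inr (cellsEq a ha aO haO (by rw [he, hOd]))
    · exact Or.inl (cellsEq a ha aE haE (by rw [he, hEv]))
  refine ⟨(aE.1, aO.1), b, σ, ⟨hEv, hOd⟩, Set.Subset.antisymm sub fun h hh => ?_⟩
  obtain ⟨a, ha, he, hk⟩ := exists_in_column p hB h.1 h.2.1
  have has := sub a ha
  have : a.1 = h.1 := by
    rcases has.1 with h1 | h1 <;> rcases hh.1 with h2 | h2 <;> rw [h1, h2] <;>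
      rw [h1, h2] at he <;> simp [hEv, hOd] at he
  have : a = h := Prod.ext this (Prod.ext hk (funext fun i => by rw [has.2 i, hh.2 i, hk]))
  rwa [← this]

/-- The tile excluding one vector of bits. -/
def forbidPar [NeZero n] (v : Fin n → Bool) (q : Ev × Col p) : Hgrp p :=
  (q.1.1, (fun i => if q.2 (i + 1) = 1 then (if v i then 1 else -1) else 0),
    fun i => q.2 i + if v i then 0 else if q.2 (i + 1) = 1 then -1 else 0)

omit [∀ i, NeZero (p i)] in
lemma forbidPar_injective [NeZero n] (v : Fin n → Bool) : Injective (forbidPar p v) := by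
  rintro ⟨κ, t⟩ ⟨κ', t'⟩ h
  simp only [forbidPar, Prod.mk.injEq] at h
  obtain ⟨h1, h2, h3⟩ := h
  refine Prod.ext (Subtype.ext h1) (funext fun i => ?_)
  have h3 := congrFun h3 i
  have h2 := congrFun h2 i
  cases hv : v i <;> simp only [hv, Bool.false_eq_true, if_false, if_true, add_zero] at h2 h3
  · rwa [h2, add_left_inj] at h3
  · exact h3

/-- One tile excludes exactly one vector of bits. -/
theorem forbid_tile (hn : 2 ≤ n) (hp : ∀ i, (p i).Prime) (v : Fin n → Bool) :
    ∃ E : Finset (Hgrp p), E.card = (baseTile p).card ∧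
      ∀ z b σ, Good z → (Tiling E (slice (p := p) z b σ) ↔ σ ≠ v) := by
  classical
  have : NeZero n := ⟨by omega⟩
  have : ∀ i, Fact (p i).Prime := fun i => ⟨hp i⟩
  refine ⟨_, card_image_par p _ (forbidPar_injective p v), fun z b σ hz => ?_⟩
  rw [tiling_image_iff _ (forbidPar_injective p v)]
  let T : Col p → Col p := fun t i => t i +
    if σ i = v i then (if t (i + 1) = 1 then -1 else 0) else 0
  have key : ∀ (x : Hgrp p) (κ : Ev) (t : Col p), x - forbidPar p v (κ, t) ∈ slice z b σ ↔
      (x.1 - κ.1 = z.1 ∨ x.1 - κ.1 = z.2) ∧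
        T t = fun i => x.2.2 i - (b i + if σ i then x.2.1 i else 0) := by
    intro x κ t
    rw [sub_mem_slice, funext_iff]
    refine and_congr_right' (forall_congr' fun i => ?_)
    simp only [forbidPar, T]
    cases σ i <;> cases v i <;> simp only [Bool.false_eq_true, Bool.true_eq_false, if_false,
      if_true] <;> (try split_ifs) <;> constructor <;> intro h <;> linear_combination -h
  constructor
  · intro h hσ
    subst hσ
    have h0 : T 0 = 0 := by funext i; simp [T]
    have h1 : T (fun _ => 1) = 0 := by funext i; simp [T]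
    let x : Hgrp p := (z.1, 0, b)
    have m : ∀ t, T t = 0 → x - forbidPar p σ (ev0, t) ∈ slice z b σ := fun t ht =>
      (key x ev0 t).2 ⟨Or.inl (by simp [x, ev0]), by rw [ht]; funext i; simp [x]⟩
    have := (h x).unique (m 0 h0) (m _ h1)
    have := congrFun (congrArg Prod.snd this) 0
    simp at this
  · intro hσ x
    obtain ⟨i₀, hi₀⟩ : ∃ i, σ i ≠ v i := Function.ne_iff.1 hσ
    have inj : Injective T := by
      intro t t' h
      by_contra hne
      obtain ⟨j, hj⟩ := Function.ne_iff.1 hne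
      have step : ∀ i, t i ≠ t' i → σ i = v i ∧ t (i + 1) ≠ t' (i + 1) := by
        intro i hi
        have h' := congrFun h i
        simp only [T] at h'
        by_cases hv : σ i = v i
        · refine ⟨hv, fun heq => hi ?_⟩
          rwa [if_pos hv, if_pos hv, heq, add_left_inj] at h'
        · rw [if_neg hv, if_neg hv, add_zero, add_zero] at h'
          exact absurd h' hi
      open Fin.NatCast in
      have all : ∀ m : ℕ, t (j + (m : Fin n)) ≠ t' (j + (m : Fin n)) := by
        intro m
        induction m with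
        | zero => rw [Nat.cast_zero, add_zero]; exact hj
        | succ m ih => rw [Nat.cast_succ, ← add_assoc]; exact (step _ ih).2
      have := all (i₀ - j).val
      rw [Fin.cast_val_eq_self, add_sub_cancel] at this
      exact hi₀ (step _ this).1
    obtain ⟨κ, hκ, hu⟩ := existsUnique_even hz x.1
    obtain ⟨t, ht⟩ := (Finite.injective_iff_surjective.1 inj)
      (fun i => x.2.2 i - (b i + if σ i then x.2.1 i else 0))
    refine ⟨(κ, t), (key x κ t).2 ⟨hκ, ht⟩, ?_⟩
    rintro ⟨κ', t'⟩ h'
    obtain ⟨a1, a2⟩ := (key x κ' t').1 h'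
    exact Prod.ext (hu κ' a1) (inj (a2.trans ht.symm))

/-- The half bit of an even cell. -/
def chiG (g : Gad) : Bool := xor (decide (g.1 = 2)) (decide (g.2 = 2 ∨ g.2 = 3))

/-- The shift of the zero fibre. -/
def linkW (β₀ : Bool) : Gad := if β₀ then (1, 1) else (1, 3)

lemma evenG_linkW : ∀ β₀, evenG (linkW β₀) = false := by decide

lemma link_fact : ∀ (β₀ : Bool) (δ : Gad), evenG δ = false → δ.2 = 1 ∨ δ.2 = 3 →
    ∀ κ : Gad, evenG κ = true →
      (decide (δ.2 ≠ δ.1) = β₀ → chiG (κ - (δ + linkW β₀)) ≠ chiG κ) ∧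
      (decide (δ.2 ≠ δ.1) ≠ β₀ → chiG (κ - (δ + linkW β₀)) = chiG κ ∧
        chiG (κ + (δ - linkW β₀)) = chiG κ) := by decide

/-- The tile excluding one value of the clock bit with one value of bit `i`. -/
def linkPar (i : Fin n) (β₀ v : Bool) (q : Ev × Col p) : Hgrp p :=
  (q.1.1 + (if q.2 i = 0 then linkW β₀ else 0),
    update 0 i (if chiG q.1.1 then 1 else 0),
    update q.2 i (q.2 i + if v then 0 else if chiG q.1.1 then 1 else 0))

omit [∀ i, NeZero (p i)] in
lemma linkPar_injective (i : Fin n) (β₀ v : Bool) : Injective (linkPar p i β₀ v) := by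
  rintro ⟨⟨κ, hκ⟩, t⟩ ⟨⟨κ', hκ'⟩, t'⟩ h
  simp only [linkPar, Prod.mk.injEq] at h
  obtain ⟨h1, -, h3⟩ := h
  have he : ∀ (κ : Gad), evenG κ = true → evenG (κ + linkW β₀) = false := by
    cases β₀ <;> decide
  have hz : t i = 0 ↔ t' i = 0 := by
    by_cases a : t i = 0 <;> by_cases a' : t' i = 0 <;> simp [a, a'] at h1 ⊢
    · have := he κ hκ; rw [h1, hκ'] at this; simp at this
    · have := he κ' hκ'; rw [← h1, hκ] at this; simp at this
  have hκκ : κ = κ' := by
    by_cases a : t i = 0 <;> simp [a, hz.symm] at h1 <;> exact h1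
  subst hκκ
  refine Prod.ext rfl (funext fun j => ?_)
  by_cases hj : j = i
  · subst hj; simpa using congrFun h3 j
  · simpa [hj] using congrFun h3 j

/-- One tile excludes one value of the clock bit together with one value of the bit `i`. -/
theorem link_tile (hp : ∀ i, (p i).Prime) (i : Fin n) (β₀ v : Bool) :
    ∃ E : Finset (Hgrp p), E.card = (baseTile p).card ∧
      ∀ z b σ, Good z → oddD z →
        (Tiling E (slice (p := p) z b σ) ↔ ¬(beta z = β₀ ∧ σ i = v)) := by
  classical
  have : Fact (p i).Prime := ⟨hp i⟩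
  refine ⟨_, card_image_par p _ (linkPar_injective p i β₀ v), fun z b σ hz hodd => ?_⟩
  rw [tiling_image_iff _ (linkPar_injective p i β₀ v)]
  let e : ZMod (p i) := if σ i = v then (if v then -1 else 1) else 0
  have he : σ i = v → e ≠ 0 := fun h => by simp only [e, if_pos h]; cases v <;> simp
  have key : ∀ (x : Hgrp p) (κ : Ev) (t : Col p), x - linkPar p i β₀ v (κ, t) ∈ slice z b σ ↔
      (x.1 - (if t i = 0 then linkW β₀ else 0) - κ.1 = z.1 ∨
        x.1 - (if t i = 0 then linkW β₀ else 0) - κ.1 = z.2) ∧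
      t i + (if chiG κ.1 then e else 0) = x.2.2 i - (b i + if σ i then x.2.1 i else 0) ∧
      ∀ j, j ≠ i → t j = x.2.2 j - (b j + if σ j then x.2.1 j else 0) := by
    intro x κ t
    rw [sub_mem_slice]
    simp only [linkPar, sub_add_eq_sub_sub_swap]
    refine and_congr_right' ⟨fun h => ⟨?_, fun j hj => ?_⟩, fun h j => ?_⟩
    · have := h i
      simp only [update_self] at this
      cases hs : σ i <;> cases v <;> cases hc : chiG κ.1 <;> simp [hs, hc, e] at this ⊢ <;>
        linear_combination -this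
    · have := h j
      simp only [update_of_ne hj, Pi.zero_apply, sub_zero] at this
      linear_combination -this
    · by_cases hj : j = i
      · subst hj
        have := h.1
        simp only [update_self]
        cases hs : σ j <;> cases v <;> cases hc : chiG κ.1 <;> simp [hs, hc, e] at this ⊢ <;>
          linear_combination -this
      · simp only [update_of_ne hj, Pi.zero_apply, sub_zero]
        linear_combination -h.2 j hj
  have hδ : evenG (z.2 - z.1) = false ∧ ((z.2 - z.1).2 = 1 ∨ (z.2 - z.1).2 = 3) :=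
    ⟨by rw [evenG_sub, hz.1, hz.2]; decide, hodd⟩
  have fact := link_fact β₀ _ hδ.1 hδ.2
  have hbeta : beta z = decide ((z.2 - z.1).2 ≠ (z.2 - z.1).1) := rfl
  constructor
  · rintro h ⟨hβ, hσ⟩
    -- a point with two preimages or none
    obtain ⟨γ, hγ⟩ : ∃ γ : Gad, γ = z.1 := ⟨_, rfl⟩
    have hA : (ev0 : Ev).1 = γ - z.1 := by simp [hγ, ev0]
    have hBev : evenG (γ - linkW β₀ - z.2) = true := by
      simp [hγ, evenG_sub, hz.1, hz.2, evenG_linkW]
    have hχ : chiG (γ - linkW β₀ - z.2) ≠ chiG (0, 0) := by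
      have := (fact (0, 0) (by decide)).1 (hbeta ▸ hβ)
      have e : γ - linkW β₀ - z.2 = ((0, 0) : Gad) - (z.2 - z.1 + linkW β₀) := by
        rw [hγ, show ((0, 0) : Gad) = 0 from rfl]; abel
      rwa [e]
    have hχB : chiG (γ - linkW β₀ - z.2) = true := by
      revert hχ; cases chiG (γ - linkW β₀ - z.2) <;> decide
    -- the value `e` is met twice
    let x : Hgrp p := (γ, 0, update b i (b i + e))
    let t₀ : Col p := 0
    let t₁ : Col p := update 0 i e
    have hC : x.2.2 i - (b i + if σ i then x.2.1 i else 0) = e := by simp [x]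
    have hrest : ∀ j, j ≠ i → x.2.2 j - (b j + if σ j then x.2.1 j else 0) = 0 := fun j hj => by
      simp [x, hj]
    have m0 : x - linkPar p i β₀ v (⟨_, hBev⟩, t₀) ∈ slice z b σ :=
      (key _ _ _).2 ⟨Or.inr (by simp [x, t₀]), by simp [t₀, hχB, hC],
        fun j hj => by simp [t₀, hrest j hj]⟩
    have m1 : x - linkPar p i β₀ v (ev0, t₁) ∈ slice z b σ :=
      (key _ _ _).2 ⟨Or.inl (by simp [x, t₁, he hσ, ev0, hγ]),
        by simp [t₁, hC, ev0, show chiG (0, 0) = false from rfl],
        fun j hj => by simp [t₁, hj, hrest j hj]⟩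
    have := congrFun (congrArg Prod.snd ((h x).unique m0 m1)) i
    simp [t₀, t₁] at this
    exact he hσ this.symm
  · intro hok x
    obtain ⟨κ₁, hκ₁, hu₁⟩ := existsUnique_even hz x.1
    obtain ⟨κ₀, hκ₀, hu₀⟩ := existsUnique_even hz (x.1 - linkW β₀)
    have hχ : σ i = v → chiG κ₀.1 = chiG κ₁.1 := by
      intro hσ
      obtain ⟨f1, f2⟩ := (fact κ₁.1 κ₁.2).2 (fun h => hok ⟨hbeta.trans h, hσ⟩)
      have hw := evenG_linkW β₀
      rcases hκ₁ with a | a
      · have hxe : evenG x.1 = true := by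
          have := evenG_sub x.1 κ₁.1; rw [a, hz.1, κ₁.2] at this; simpa using this.symm
        rcases hκ₀ with b' | b'
        · have := evenG_sub (x.1 - linkW β₀) κ₀.1
          rw [b', evenG_sub, hxe, hw, hz.1, κ₀.2] at this; simp at this
        · rw [← f1]; congr 1; rw [← a, ← b']; abel
      · have hxe : evenG x.1 = false := by
          have := evenG_sub x.1 κ₁.1; rw [a, hz.2, κ₁.2] at this; simpa using this.symm
        rcases hκ₀ with b' | b'
        · rw [← f2]; congr 1; rw [← a, ← b']; abel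
        · have := evenG_sub (x.1 - linkW β₀) κ₀.1
          rw [b', evenG_sub, hxe, hw, hz.2, κ₀.2] at this; simp at this
    have hterm : (if chiG κ₀.1 then e else 0) = (if chiG κ₁.1 then e else 0) := by
      by_cases hσ : σ i = v
      · rw [hχ hσ]
      · simp [e, hσ]
    set C : Col p := fun j => x.2.2 j - (b j + if σ j then x.2.1 j else 0) with hC
    set s : ZMod (p i) := C i - if chiG κ₁.1 then e else 0 with hs
    refine ⟨(if s = 0 then κ₀ else κ₁, update C i s), (key _ _ _).2 ⟨?_, ?_, ?_⟩, ?_⟩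
    · by_cases h0 : s = 0
      · simpa [h0] using hκ₀
      · simpa [h0] using hκ₁
    · simp only [update_self]
      by_cases h0 : s = 0
      · rw [if_pos h0, hterm]; simp [hs, hC]
      · rw [if_neg h0]; simp [hs, hC]
    · intro j hj; simp [hj, hC]
    rintro ⟨κ, t⟩ h
    obtain ⟨g1, g2, g3⟩ := (key _ _ _).1 h
    have ht : t i = s ∧ κ = if s = 0 then κ₀ else κ₁ := by
      by_cases a : t i = 0
      · rw [if_pos a] at g1
        obtain rfl := hu₀ κ g1
        rw [hterm] at g2
        have : s = 0 := by rw [hs]; simp only [hC]; linear_combination -g2 + a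
        exact ⟨by rw [a, this], by rw [if_pos this]⟩
      · rw [if_neg a, sub_zero] at g1
        obtain rfl := hu₁ κ g1
        have : t i = s := by rw [hs]; simp only [hC]; linear_combination g2
        exact ⟨this, by rw [if_neg (this ▸ a)]⟩
    refine Prod.ext ht.2 (funext fun j => ?_)
    by_cases hj : j = i
    · subst hj; simpa using ht.1
    · simpa [hj, hC] using g3 j hj

/-- A two-fibre tile forces the line of type `i` to be the same at both fibres. -/
theorem const_tile (hp : ∀ i, (p i).Prime) (i : Fin n) :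
    ∃ E E' : Finset (Hgrp p), E.card + E'.card = (baseTile p).card ∧
      ∀ z b σ z' b' σ', Good z → Good z' →
        (Tiling2 E E' (slice (p := p) z b σ) (slice z' b' σ') ↔ b i = b' i ∧ σ i = σ' i) := by
  classical
  have : Fact (p i).Prime := ⟨hp i⟩
  refine ⟨(baseTile p).filter (fun h => h.2.2 i = 0), (baseTile p).filter (fun h => ¬h.2.2 i = 0),
    Finset.card_filter_add_card_filter_not _, fun z b σ z' b' σ' hz hz' => ⟨fun h => ?_, ?_⟩⟩
  · -- test a point on the first line
    have test : ∀ c : ZMod (p i),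
        b i + (if σ i then c else 0) = b' i + (if σ' i then c else 0) := by
      intro c
      by_contra hne
      let y : Col p := update 0 i (b i + if σ i then c else 0)
      let k : Col p := update 0 i c
      let x : Hgrp p := (z.1, k, y)
      obtain ⟨f, ⟨hf, hfA⟩, hu⟩ := slice_tiles_base p hz b σ x
      obtain ⟨f', ⟨hf', hfA'⟩, -⟩ := slice_tiles_base p hz' b' σ' x
      obtain ⟨q, -, huu⟩ := h x
      have hk : f.2.1 = 0 ∧ f'.2.1 = 0 := by
        simp [baseTile] at hf hf'; exact ⟨hf.2, hf'.2⟩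
      have a1 : f.2.2 i = 0 := by
        have := ((sub_mem_slice p).1 hfA).2 i
        rw [hk.1] at this
        simpa [x, y, k, sub_eq_self] using this
      have a2 : ¬ f'.2.2 i = 0 := by
        intro h0
        have := ((sub_mem_slice p).1 hfA').2 i
        rw [hk.2, h0] at this
        simp [x, y, k] at this
        exact hne this
      have := (huu (f, false) (Or.inl ⟨rfl, Finset.mem_filter.2 ⟨hf, a1⟩, hfA⟩)).trans
        (huu (f', true) (Or.inr ⟨rfl, Finset.mem_filter.2 ⟨hf', a2⟩, hfA'⟩)).symm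
      simp at this
    have h0 : b i = b' i := by simpa using test 0
    refine ⟨h0, ?_⟩
    have h1 := test 1
    rw [h0] at h1
    cases hs : σ i <;> cases hs' : σ' i <;> simp [hs, hs'] at h1 ⊢
  · rintro ⟨hb, hσ⟩ x
    obtain ⟨f, ⟨hf, hfA⟩, hu⟩ := slice_tiles_base p hz b σ x
    obtain ⟨f', ⟨hf', hfA'⟩, hu'⟩ := slice_tiles_base p hz' b' σ' x
    have same : f.2.2 i = f'.2.2 i := by
      have a := ((sub_mem_slice p).1 hfA).2 i
      have a' := ((sub_mem_slice p).1 hfA').2 i
      simp [baseTile] at hf hf'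
      rw [hf.2] at a
      rw [hf'.2, ← hb, ← hσ] at a'
      linear_combination a' - a
    by_cases h0 : f.2.2 i = 0
    · refine ⟨(f, false), Or.inl ⟨rfl, Finset.mem_filter.2 ⟨hf, h0⟩, hfA⟩, ?_⟩
      rintro ⟨g, c⟩ (⟨rfl, hg, hgA⟩ | ⟨rfl, hg, hgA⟩)
      · exact Prod.ext (hu g ⟨(Finset.mem_filter.1 hg).1, hgA⟩) rfl
      · obtain rfl := hu' g ⟨(Finset.mem_filter.1 hg).1, hgA⟩
        exact absurd (same ▸ h0) (Finset.mem_filter.1 hg).2
    · refine ⟨(f', true), Or.inr ⟨rfl, Finset.mem_filter.2 ⟨hf', same ▸ h0⟩, hfA'⟩, ?_⟩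
      rintro ⟨g, c⟩ (⟨rfl, hg, hgA⟩ | ⟨rfl, hg, hgA⟩)
      · obtain rfl := hu g ⟨(Finset.mem_filter.1 hg).1, hgA⟩
        exact absurd (Finset.mem_filter.1 hg).2 h0
      · exact Prod.ext (hu' g ⟨(Finset.mem_filter.1 hg).1, hgA⟩) rfl

end Vale.Agent.P043.Aperiodic
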