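import Vale.Agent.P043.Aperiodic.Defs

/-! No periodic last-digit Sudoku with a one-clock seed.

Descent: the seed fixes every value off the multiples of `8`; reading the lines through the
multiples of `8` shows that the restriction to the multiples of `8` has the same form, with a
period eight times smaller. -/

namespace Vale.Agent.P043.Aperiodic

set_option maxRecDepth 100000

lemma lastDigit_of_ne {m : ℤ} (h : (m : ZMod 8) ≠ 0) : lastDigit m = (m : ZMod 8) := by
  have h8 : ¬ (8 : ℤ) ∣ m := fun hd => h ((ZMod.intCast_zmod_eq_zero_iff_dvd m 8).2 (by simpa using hd))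
  have h0 : m ≠ 0 := by rintro rfl; simp at h
  rw [lastDigit, dif_neg h0, if_neg h8]

lemma lastDigit_mul8 (m : ℤ) : lastDigit (8 * m) = lastDigit m := by
  by_cases h : m = 0
  · simp [h]
  · conv_lhs => rw [lastDigit, dif_neg (mul_ne_zero (by norm_num) h), if_pos (dvd_mul_right 8 m)]
    congr 1
    omega

/-- The row `r + 8 l`. -/
def rowIx (r l : ZMod 8) : Fin 64 :=
  ⟨r.val + 8 * l.val, by have := ZMod.val_lt r; have := ZMod.val_lt l; omega⟩

lemma eight_zero : (8 : ZMod 8) = 0 := by decide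

lemma rowIx_val (r l : ZMod 8) : ((rowIx r l : Fin 64) : ℕ) = r.val + 8 * l.val := rfl

lemma rowIx_cast (r l : ZMod 8) : (((rowIx r l : Fin 64) : ℕ) : ZMod 8) = r := by
  rw [rowIx_val, Nat.cast_add, Nat.cast_mul, ZMod.natCast_zmod_val]
  rw [show ((8 : ℕ) : ZMod 8) = 0 from ZMod.natCast_self 8]
  simp

lemma natVal_cast (r : ZMod 8) : (((r.val : ℕ) : ℤ) : ZMod 8) = r := by
  rw [Int.cast_natCast, ZMod.natCast_zmod_val]

lemma unit_facts : ∀ μ : ZMod 8, IsUnit μ → μ * μ = 1 ∧ μ * 4 = 4 := by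
  intro μ h
  obtain ⟨u, rfl⟩ := h
  revert u
  decide

/-- The finite data carried by a line. -/
lemma line_data {f : Fin 64 → ZMod 8} (h : LineRel f) :
    (∃ v, ∀ n, f n = v) ∨ ∃ μ A B : ZMod 8, (μ * μ = 1 ∧ μ * 4 = 4) ∧ ¬ (A = 0 ∧ B = 0) ∧
      ∀ r, (A * r + B ≠ 0 → ∀ l, f (rowIx r l) = μ * (A * r + B)) ∧
        (A * r + B = 0 → ∃ x, ∀ l, x + A * l ≠ 0 → f (rowIx r l) = μ * (x + A * l)) := by
  obtain ⟨μ, hμ, a, b, hf⟩ := h
  induction hk : a.natAbs + b.natAbs using Nat.strong_induction_on generalizing a b with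
  | _ k ih =>
    by_cases h8 : (a : ZMod 8) = 0 ∧ (b : ZMod 8) = 0
    · by_cases h0 : a = 0 ∧ b = 0
      · exact Or.inl ⟨μ * lastDigit 0, fun n => by simp [hf, h0.1, h0.2]⟩
      · obtain ⟨a', ha⟩ := (ZMod.intCast_zmod_eq_zero_iff_dvd a 8).1 h8.1
        obtain ⟨b', hb⟩ := (ZMod.intCast_zmod_eq_zero_iff_dvd b 8).1 h8.2
        refine ih (a'.natAbs + b'.natAbs) (by omega) a' b' (fun n => ?_) rfl
        rw [hf, ha, hb, ← lastDigit_mul8 (a' * _ + b')]
        congr 2
        push_cast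
        ring
    · refine Or.inr ⟨μ, a, b, unit_facts μ hμ, h8, fun r => ⟨fun hr l => ?_, fun hr => ?_⟩⟩
      · have hc : ((a * ((rowIx r l : Fin 64) : ℕ) + b : ℤ) : ZMod 8) = a * r + b := by
          rw [Int.cast_add, Int.cast_mul, Int.cast_natCast, rowIx_cast]
        rw [hf, lastDigit_of_ne (by rwa [hc]), hc]
      · have hc : ((a * (r.val : ℕ) + b : ℤ) : ZMod 8) = 0 := by
          rw [Int.cast_add, Int.cast_mul, natVal_cast, hr]
        obtain ⟨x, hx⟩ := (ZMod.intCast_zmod_eq_zero_iff_dvd _ 8).1 hc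
        refine ⟨x, fun l hl => ?_⟩
        have he : a * ((rowIx r l : Fin 64) : ℕ) + b = 8 * (x + a * (l.val : ℕ)) := by
          rw [rowIx_val]
          push_cast at hx ⊢
          linear_combination hx
        have hc' : ((x + a * (l.val : ℕ) : ℤ) : ZMod 8) = x + a * l := by
          rw [Int.cast_add, Int.cast_mul, natVal_cast]
        rw [hf, he, lastDigit_mul8, lastDigit_of_ne (by rwa [hc']), hc']

lemma odd_slope : ∀ μ J : ZMod 8, μ * μ = 1 → J * J = 1 → ∀ A B : ZMod 8, ¬ (A = 0 ∧ B = 0) →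
    (∀ r, r ≠ 0 → A * r + B ≠ 0 → μ * (A * r + B) = J * r) → A * A = 1 := by
  decide +kernel

/-- A line with odd slope through the zero class of `r`. -/
lemma odd_line {f : Fin 64 → ZMod 8} (h : LineRel f) (J r : ZMod 8) (hJ : J * J = 1)
    (hk : ∀ r', r' ≠ r → ∀ l, f (rowIx r' l) = J * (r' - r)) :
    ∃ C, ∀ l, C + J * l ≠ 0 → f (rowIx r l) = C + J * l := by
  have hne : ∀ k : ZMod 8, k ≠ 0 → r + k ≠ r := fun k hk0 hk1 => hk0 (by simpa using hk1)
  rcases line_data h with ⟨v, hv⟩ | ⟨μ, A, B, ⟨hμ, -⟩, hAB, hd⟩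
  · have h1 := (hk (r + 1) (hne 1 (by decide)) 0).symm.trans (hv _)
    have h2 := (hk (r + 2) (hne 2 (by decide)) 0).symm.trans (hv _)
    have h3 : J = J * 2 := by linear_combination h1 - h2
    have h4 : J = 0 := by linear_combination -h3
    rw [h4] at hJ
    exact absurd hJ (by decide)
  · have hA : A * A = 1 := by
      refine odd_slope μ J hμ hJ A (A * r + B) ?_ ?_
      · rintro ⟨rfl, h2⟩
        exact hAB ⟨rfl, by simpa using h2⟩
      · intro k hk0 hk1
        have e : A * k + (A * r + B) = A * (r + k) + B := by ring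
        rw [e] at hk1 ⊢
        rw [← (hd (r + k)).1 hk1 0, hk (r + k) (hne k hk0) 0]
        ring
    have hr : A * r + B = 0 := by
      by_contra hr
      set r₀ := -B * A with hr₀
      have hz : A * r₀ + B = 0 := by rw [hr₀]; linear_combination (-B) * hA
      have hne₀ : r₀ ≠ r := fun he => hr (he ▸ hz)
      obtain ⟨x, hx⟩ := (hd r₀).2 hz
      have hv : ∀ v : ZMod 8, v ≠ 0 → μ * v = J * (r₀ - r) := by
        intro v hv
        have e : x + A * (A * (v - x)) = v := by linear_combination (v - x) * hA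
        have := hx (A * (v - x)) (by rwa [e])
        rw [e, hk r₀ hne₀] at this
        exact this.symm
      have h13 : μ * (μ * 1) = μ * (μ * 3) := by
        rw [hv 1 (by decide), hv 3 (by decide)]
      rw [← mul_assoc, ← mul_assoc, hμ, one_mul, one_mul] at h13
      exact absurd h13 (by decide)
    obtain ⟨x, hx⟩ := (hd r).2 hr
    have hμA : μ * A = J := by
      have e : A * (r + 1) + B = A := by linear_combination hr
      have hA0 : A ≠ 0 := fun h0 => by rw [h0] at hA; exact absurd hA (by decide)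
      have := ((hd (r + 1)).1 (by rwa [e]) 0).symm.trans (hk (r + 1) (hne 1 (by decide)) 0)
      rw [e] at this
      rw [this]
      ring
    refine ⟨μ * x, fun l hl => ?_⟩
    have e : μ * x + J * l = μ * (x + A * l) := by rw [← hμA]; ring
    rw [e] at hl ⊢
    exact hx l fun h0 => hl (by rw [h0, mul_zero])

/-- The hypotheses that survive the descent. -/
def Seeded (G : Fin 64 → ℤ → ZMod 8) : Prop :=
  (∀ n (m : ℤ), (m : ZMod 8) ≠ 0 → G n m = m) ∧
    ∀ i j : ℤ, LineRel fun n => G n (i + (n : ℕ) * j)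

variable {G : Fin 64 → ℤ → ZMod 8}

lemma unit_mul_ne : ∀ J r : ZMod 8, J * J = 1 → r ≠ 0 → J * r ≠ 0 := by
  intro J r hJ hr h
  apply hr
  linear_combination J * h - r * hJ

/-- Along an odd line the values at multiples of `8` are a shift of the position. -/
lemma line_shift (hG : Seeded G) (r : ZMod 8) (j w₀ : ℤ) (hj : (j : ZMod 8) * j = 1) :
    ∃ e : ZMod 8, ∀ l : ZMod 8, (w₀ : ZMod 8) + j * l + e ≠ 0 →
      G (rowIx r l) (8 * (w₀ + j * (l.val : ℕ))) = (w₀ : ZMod 8) + j * l + e := by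
  set i : ℤ := 8 * w₀ - (r.val : ℕ) * j with hi
  obtain ⟨C, hC⟩ := odd_line (hG.2 i j) (j : ZMod 8) r hj (by
    intro r' hr' l
    have hc : ((i + ((rowIx r' l : Fin 64) : ℕ) * j : ℤ) : ZMod 8) = (j : ZMod 8) * (r' - r) := by
      rw [hi, Int.cast_add, Int.cast_sub, Int.cast_mul, Int.cast_mul, Int.cast_mul,
        natVal_cast, Int.cast_natCast, rowIx_cast, Int.cast_ofNat, eight_zero]
      ring
    simpa only [hc] using hG.1 (rowIx r' l) (i + ((rowIx r' l : Fin 64) : ℕ) * j)
      (by rw [hc]; exact unit_mul_ne _ _ hj (sub_ne_zero.2 hr')))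
  refine ⟨C - w₀, fun l hl => ?_⟩
  have e : (w₀ : ZMod 8) + j * l + (C - w₀) = C + j * l := by ring
  rw [e] at hl ⊢
  rw [← hC l hl]
  congr 1
  rw [hi, rowIx_val]
  push_cast
  ring

lemma avoid_four : ∀ p q s t : ZMod 8, ∃ l : ZMod 8,
    l ≠ 7 ∧ l ≠ p ∧ l ≠ q ∧ l ≠ s ∧ l ≠ t := by
  intro p q s t
  have hc : ({7, p, q, s, t} : Finset (ZMod 8)).card ≤ 5 := Finset.card_le_five
  have hlt : ({7, p, q, s, t} : Finset (ZMod 8)).card < (Finset.univ : Finset (ZMod 8)).card := by
    simp only [Finset.card_univ, ZMod.card]; omega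
  obtain ⟨l, -, hl⟩ := Finset.exists_mem_notMem_of_card_lt_card hlt
  exact ⟨l, by simpa [not_or] using hl⟩

lemma val_add_one : ∀ l : ZMod 8, l ≠ 7 → (l + 1).val = l.val + 1 := by decide

lemma odd_sq : ∀ k : ZMod 8, k * 4 = 4 → k * k = 1 ∧ k ≠ 0 := by decide

/-- Two unit lines of the same parity have the same shift. -/
lemma shift_eq (hG : Seeded G) (r : ZMod 8) (w₀ v₀ : ℤ) (hpar : 2 ∣ v₀ - w₀) (e f : ZMod 8)
    (he : ∀ l : ZMod 8, (w₀ : ZMod 8) + l + e ≠ 0 →
      G (rowIx r l) (8 * (w₀ + (l.val : ℕ))) = (w₀ : ZMod 8) + l + e)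
    (hf : ∀ l : ZMod 8, (v₀ : ZMod 8) + l + f ≠ 0 →
      G (rowIx r l) (8 * (v₀ + (l.val : ℕ))) = (v₀ : ZMod 8) + l + f) : e = f := by
  by_contra hef
  obtain ⟨l, h7, h1, h2, h3, h4⟩ := avoid_four (-(w₀ : ZMod 8) - e) (-(w₀ : ZMod 8) - f)
    (-(v₀ : ZMod 8) - e - 1) (-(v₀ : ZMod 8) - f - 1)
  obtain ⟨d, hd⟩ := hpar
  set k : ℤ := v₀ + 1 - w₀ with hk
  have hk4 : (k : ZMod 8) * 4 = 4 := by
    have : (k : ZMod 8) = 2 * d + 1 := by
      rw [show k = 2 * d + 1 by omega]; push_cast; ring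
    rw [this]
    linear_combination (d : ZMod 8) * eight_zero
  obtain ⟨hk2, hk0⟩ := odd_sq _ hk4
  obtain ⟨z, hz⟩ := line_shift hG r k (w₀ + (l.val : ℕ) - k * (l.val : ℕ)) hk2
  have hP := hz l
  have hQ := hz (l + 1)
  have eP : w₀ + (l.val : ℕ) - k * (l.val : ℕ) + k * (l.val : ℕ) = w₀ + ((l.val : ℕ) : ℤ) := by ring
  have eQ : w₀ + (l.val : ℕ) - k * (l.val : ℕ) + k * ((l + 1).val : ℕ) =
      v₀ + (((l + 1).val : ℕ) : ℤ) := by
    rw [val_add_one l h7, hk]; push_cast; ring
  have cP : ((w₀ + (l.val : ℕ) - k * (l.val : ℕ) : ℤ) : ZMod 8) + k * l = w₀ + l := by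
    rw [Int.cast_sub, Int.cast_add, Int.cast_mul, natVal_cast]; ring
  have cQ : ((w₀ + (l.val : ℕ) - k * (l.val : ℕ) : ℤ) : ZMod 8) + k * (l + 1) = v₀ + (l + 1) := by
    rw [Int.cast_sub, Int.cast_add, Int.cast_mul, natVal_cast, hk, Int.cast_sub, Int.cast_add,
      Int.cast_one]
    ring
  rw [eP, cP] at hP
  rw [eQ, cQ] at hQ
  have gP : (w₀ : ZMod 8) + l + e ≠ 0 := fun h => h1 (by linear_combination h)
  have gQ : (v₀ : ZMod 8) + (l + 1) + f ≠ 0 := fun h => h4 (by linear_combination h)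
  by_cases hzP : (w₀ : ZMod 8) + l + z = 0
  · have hzQ : (v₀ : ZMod 8) + (l + 1) + z ≠ 0 := by
      intro h
      apply hk0
      rw [hk]; push_cast
      linear_combination h - hzP
    have := (hf _ gQ).symm.trans (hQ hzQ)
    exact h2 (by linear_combination hzP + this)
  · have hze : z = e := by linear_combination (he _ gP).symm.trans (hP hzP) * (-1 : ZMod 8)
    subst hze
    by_cases hzQ : (v₀ : ZMod 8) + (l + 1) + z = 0
    · exact h3 (by linear_combination hzQ)
    · exact hef (by linear_combination -((hf _ gQ).symm.trans (hQ hzQ)))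

/-- The parity class of a point on a multiple of `8`. -/
def par (w : ℤ) (l : ZMod 8) : Bool := decide ((w - (l.val : ℕ)) % 2 = 1)

/-- The shift depends only on the class of the row and the parity of the point. -/
lemma exists_shift (hG : Seeded G) : ∃ e : ZMod 8 → Bool → ZMod 8, ∀ r l (w : ℤ),
    (w : ZMod 8) + e r (par w l) ≠ 0 → G (rowIx r l) (8 * w) = (w : ZMod 8) + e r (par w l) := by
  have h : ∀ (r : ZMod 8) (w₀ : ℤ), ∃ e : ZMod 8, ∀ l : ZMod 8, (w₀ : ZMod 8) + l + e ≠ 0 →
      G (rowIx r l) (8 * (w₀ + (l.val : ℕ))) = (w₀ : ZMod 8) + l + e := fun r w₀ => by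
    simpa using line_shift hG r 1 w₀ (by simp)
  choose E hE using h
  refine ⟨fun r s => E r (if s then 1 else 0), fun r l w hw => ?_⟩
  have hpar : 2 ∣ (if par w l then (1 : ℤ) else 0) - (w - (l.val : ℕ)) := by
    simp only [par, decide_eq_true_eq]
    split_ifs <;> omega
  have heq := shift_eq hG r (w - (l.val : ℕ)) _ hpar _ _ (hE r _) (hE r _)
  have hc : ((w - (l.val : ℕ) : ℤ) : ZMod 8) + l = w := by
    rw [Int.cast_sub, natVal_cast]; ring
  have := hE r (w - (l.val : ℕ)) l
  rw [heq, hc, sub_add_cancel] at this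
  exact this hw

lemma avoid_three : ∀ p q t₀ t₁ : ZMod 8, ∃ w : ZMod 8, w + p ≠ 0 ∧ w + q ≠ 0 ∧
    w + (if w.val % 2 = 0 then t₀ else t₁) ≠ 0 ∧ w + (if w.val % 2 = 0 then t₀ else t₁) ≠ 4 := by
  decide +kernel

lemma class_not_two : ∀ A x : ZMod 8, A ≠ 0 → A ≠ 4 → ∃ l l' : ZMod 8,
    l.val % 2 = l'.val % 2 ∧ x + A * l ≠ 0 ∧ x + A * l' ≠ 0 ∧ x + A * l ≠ x + A * l' := by
  decide +kernel

lemma class_not_one : ∀ A x y : ZMod 8, A ≠ 0 →
    (∀ l, x + A * l ≠ 0 → x + A * l = y) → A = 4 ∧ y = 4 := by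
  decide +kernel

/-- The row line at height `w`. -/
lemma row_line (hG : Seeded G) (w : ℤ) : LineRel fun n => G n (8 * w) := by
  simpa using hG.2 (8 * w) 0

lemma par_congr {w : ℤ} {l l' : ZMod 8} (h : l.val % 2 = l'.val % 2) : par w l = par w l' := by
  simp only [par, decide_eq_decide]
  omega

/-- The shift does not depend on the parity. -/
lemma shift_parity (hG : Seeded G) (e : ZMod 8 → Bool → ZMod 8)
    (he : ∀ r l (w : ℤ), (w : ZMod 8) + e r (par w l) ≠ 0 →
      G (rowIx r l) (8 * w) = (w : ZMod 8) + e r (par w l)) (r : ZMod 8) :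
    e r false = e r true := by
  by_contra hne
  obtain ⟨w, hp, hq, ht⟩ :=
    avoid_three (e r false) (e r true) (e (r + 1) false) (e (r + 1) true)
  set w' : ℤ := ((w.val : ℕ) : ℤ) with hw'
  have hc : (w' : ZMod 8) = w := natVal_cast w
  have hnz : ∀ s, w + e r s ≠ 0 := fun s => by cases s <;> assumption
  have hfr : ∀ l, G (rowIx r l) (8 * w') = w + e r (par w' l) := fun l => by
    have := he r l w'
    rw [hc] at this
    exact this (hnz _)
  have hflip : par w' 0 ≠ par w' 1 := by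
    simp only [par, ZMod.val_zero, show ((1 : ZMod 8)).val = 1 from rfl, ne_eq, decide_eq_decide]
    omega
  have hconst : ¬ ∀ l, G (rowIx r l) (8 * w') = G (rowIx r 0) (8 * w') := fun h => by
    have := h 1
    rw [hfr, hfr] at this
    have := add_left_cancel this
    cases h0 : par w' 0 <;> cases h1 : par w' 1 <;> rw [h0, h1] at this <;>
      first
      | exact hflip (h0.trans h1.symm)
      | exact hne this
      | exact hne this.symm
  rcases line_data (row_line hG w') with ⟨v, hv⟩ | ⟨μ, A, B, ⟨hμ, hμ4⟩, hAB, hd⟩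
  · exact hconst fun l => (hv _).trans (hv _).symm
  · have hz : A * r + B = 0 := by
      by_contra h
      exact hconst fun l => ((hd r).1 h l).trans ((hd r).1 h 0).symm
    obtain ⟨x, hx⟩ := (hd r).2 hz
    have hA0 : A ≠ 0 := fun h => hAB ⟨h, by simpa [h] using hz⟩
    have hA4 : A = 4 := by
      by_contra hA4
      obtain ⟨l, l', hll, h1, h2, h3⟩ := class_not_two A x hA0 hA4
      apply h3
      have e1 := (hx l h1).symm.trans (hfr l)
      have e2 := (hx l' h2).symm.trans (hfr l')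
      rw [par_congr hll, ← e2] at e1
      calc x + A * l = μ * μ * (x + A * l) := by rw [hμ, one_mul]
        _ = μ * μ * (x + A * l') := by rw [mul_assoc, e1, ← mul_assoc]
        _ = x + A * l' := by rw [hμ, one_mul]
    have h4 : A * (r + 1) + B = 4 := by
      rw [← hA4]; linear_combination hz
    have hv := (hd (r + 1)).1 (by rw [h4]; decide) 0
    rw [h4, hμ4] at hv
    have hne4 : w + e (r + 1) (par w' 0) ≠ 0 ∧ w + e (r + 1) (par w' 0) ≠ 4 := by
      rcases Nat.mod_two_eq_zero_or_one w.val with h | h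
      · have : par w' 0 = false := by
          simp only [par, ZMod.val_zero, decide_eq_false_iff_not, hw']; omega
        rw [this]; rwa [if_pos h] at ht
      · have : par w' 0 = true := by
          simp only [par, ZMod.val_zero, decide_eq_true_eq, hw']; omega
        rw [this]; rwa [if_neg (by omega)] at ht
    have := he (r + 1) 0 w'
    rw [hc] at this
    exact hne4.2 ((this hne4.1).symm.trans hv)

/-- Off the zero class, the shift is affine. -/
lemma shift_affine_off (hG : Seeded G) (e : ZMod 8 → ZMod 8)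
    (he : ∀ r l (w : ℤ), (w : ZMod 8) + e r ≠ 0 →
      G (rowIx r l) (8 * w) = (w : ZMod 8) + e r)
    (v r₁ r₂ : ZMod 8) (h₁ : v + e r₁ ≠ 0) (h₂ : v + e r₂ ≠ 0) (h₁₂ : e r₁ ≠ e r₂) :
    ∃ T E, ∀ r, v + e r ≠ 0 → e r = T * r + E := by
  set w : ℤ := ((v.val : ℕ) : ℤ)
  have hf : ∀ r, v + e r ≠ 0 → ∀ l, G (rowIx r l) (8 * w) = v + e r := fun r hr l => by
    have := he r l w
    rw [natVal_cast] at this
    exact this hr
  rcases line_data (row_line hG w) with ⟨u, hu⟩ | ⟨μ, A, B, ⟨hμ, hμ4⟩, hAB, hd⟩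
  · exact absurd (add_left_cancel (((hf r₁ h₁ 0).symm.trans (hu _)).trans
      (((hu _).symm).trans (hf r₂ h₂ 0)))) h₁₂
  · have hzero : ∀ r, v + e r ≠ 0 → A * r + B = 0 → A = 4 ∧ v + e r = 4 := by
      intro r hr hz
      obtain ⟨x, hx⟩ := (hd r).2 hz
      have hA0 : A ≠ 0 := fun h => hAB ⟨h, by simpa [h] using hz⟩
      obtain ⟨hA4, hy⟩ := class_not_one A x (μ * (v + e r)) hA0 fun l hl => by
        rw [← hf r hr l, hx l hl, ← mul_assoc, hμ, one_mul]
      refine ⟨hA4, ?_⟩
      calc v + e r = μ * (μ * (v + e r)) := by rw [← mul_assoc, hμ, one_mul]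
        _ = 4 := by rw [hy, hμ4]
    by_cases hz : ∃ r, v + e r ≠ 0 ∧ A * r + B = 0
    · obtain ⟨r₀, hr₀, hz₀⟩ := hz
      have hA4 := (hzero r₀ hr₀ hz₀).1
      have hall : ∀ r, v + e r ≠ 0 → v + e r = 4 := by
        intro r hr
        by_cases h : A * r + B = 0
        · exact (hzero r hr h).2
        · have e4 : A * r + B = 4 := by
            have key : ∀ k : ZMod 8, 4 * k ≠ 0 → 4 * k = 4 := by decide
            have hk : A * r + B = 4 * (r - r₀) := by rw [← hA4]; linear_combination hz₀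
            rw [hk] at h ⊢
            exact key _ h
          rw [← hf r hr 0, (hd r).1 h 0, e4, hμ4]
      exact absurd (add_left_cancel ((hall r₁ h₁).trans (hall r₂ h₂).symm)) h₁₂
    · refine ⟨μ * A, μ * B - v, fun r hr => ?_⟩
      have := (hf r hr 0).symm.trans ((hd r).1 (fun h => hz ⟨r, hr, h⟩) 0)
      linear_combination this

/-- The shift is affine in the row. -/
lemma shift_affine (hG : Seeded G) (e : ZMod 8 → ZMod 8)
    (he : ∀ r l (w : ℤ), (w : ZMod 8) + e r ≠ 0 →
      G (rowIx r l) (8 * w) = (w : ZMod 8) + e r) :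
    ∃ T E, ∀ r, e r = T * r + E := by
  by_cases hc : ∀ r, e r = e 0
  · exact ⟨0, e 0, fun r => by rw [hc r, zero_mul, zero_add]⟩
  obtain ⟨r₁, hr₁⟩ := not_forall.1 hc
  by_cases hs : ∃ v, ∀ r, v + e r ≠ 0
  · obtain ⟨v, hv⟩ := hs
    obtain ⟨T, E, hTE⟩ := shift_affine_off hG e he v r₁ 0 (hv _) (hv _) hr₁
    exact ⟨T, E, fun r => hTE r (hv r)⟩
  · simp only [not_exists, not_forall, not_not] at hs
    have hinj : Function.Injective e := by
      refine Finite.injective_iff_surjective.2 fun b => ?_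
      obtain ⟨r, hr⟩ := hs (-b)
      exact ⟨r, by linear_combination hr⟩
    have hoff : ∀ s r : ZMod 8, r ≠ s → -e s + e r ≠ 0 := fun s r hrs h =>
      hrs (hinj (by linear_combination h))
    have h21 : e 1 ≠ e 2 := fun h => absurd (hinj h) (by decide)
    obtain ⟨T, E, h0⟩ := shift_affine_off hG e he (-e 0) 1 2
      (hoff _ _ (by decide)) (hoff _ _ (by decide)) h21
    obtain ⟨T', E', h4⟩ := shift_affine_off hG e he (-e 4) 1 2
      (hoff _ _ (by decide)) (hoff _ _ (by decide)) h21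
    have a1 := (h0 1 (hoff _ _ (by decide))).symm.trans (h4 1 (hoff _ _ (by decide)))
    have a2 := (h0 2 (hoff _ _ (by decide))).symm.trans (h4 2 (hoff _ _ (by decide)))
    refine ⟨T, E, fun r => ?_⟩
    by_cases hr : r = 0
    · subst hr
      rw [h4 0 (hoff _ _ (by decide))]
      linear_combination (-2 : ZMod 8) * a1 + a2
    · exact h0 r (hoff _ _ hr)

/-- No seeded family is periodic. -/
lemma seeded_not_periodic (P : ℕ) : ∀ G : Fin 64 → ℤ → ZMod 8, Seeded G → 0 < P →
    (∀ n m, G n (m + P) = G n m) → False := by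
  induction P using Nat.strong_induction_on with
  | _ P ih =>
    intro G hG hP hper
    have hP8 : (P : ZMod 8) = 0 := by
      have key : ∀ p : ZMod 8, (1 + p ≠ 0 → 1 + p = 1) → (2 + p ≠ 0 → 2 + p = 2) → p = 0 := by
        decide
      refine key _ (fun h => ?_) (fun h => ?_)
      · have := hper 0 1
        rw [hG.1 0 1 (by decide), hG.1 0 (1 + P) (by push_cast; exact h)] at this
        push_cast at this; exact this
      · have := hper 0 2
        rw [hG.1 0 2 (by decide), hG.1 0 (2 + P) (by push_cast; exact h)] at this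
        push_cast at this; exact this
    obtain ⟨Q, hQ⟩ := (ZMod.natCast_eq_zero_iff P 8).1 hP8
    obtain ⟨e, he⟩ := exists_shift hG
    have hpar := shift_parity hG e he
    have he' : ∀ r l (w : ℤ), (w : ZMod 8) + e r false ≠ 0 →
        G (rowIx r l) (8 * w) = (w : ZMod 8) + e r false := by
      intro r l w h
      have heq : e r (par w l) = e r false := by
        cases par w l
        · rfl
        · exact (hpar r).symm
      have := he r l w
      rw [heq] at this
      exact this h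
    obtain ⟨T, E, hTE⟩ := shift_affine hG (fun r => e r false) he'
    set t : ℤ := -((T.val : ℕ) : ℤ)
    set u : ℤ := -((E.val : ℕ) : ℤ)
    refine ih Q (by omega) (fun n w => G n (8 * (w + (n : ℕ) * t + u))) ⟨fun n m hm => ?_,
      fun i j => ?_⟩ (by omega) (fun n w => ?_)
    · obtain ⟨r, l, rfl⟩ : ∃ r l, rowIx r l = n := by
        refine ⟨((n : ℕ) : ZMod 8), (((n : ℕ) / 8 : ℕ) : ZMod 8), Fin.ext ?_⟩
        have := n.isLt
        rw [rowIx_val, ZMod.val_natCast, ZMod.val_natCast]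
        omega
      have hc : ((m + ((rowIx r l : Fin 64) : ℕ) * t + u : ℤ) : ZMod 8) + e r false = m := by
        rw [hTE r, Int.cast_add, Int.cast_add, Int.cast_mul, Int.cast_natCast, rowIx_cast,
          Int.cast_neg, Int.cast_neg, natVal_cast, natVal_cast]
        ring
      have := he' r l (m + ((rowIx r l : Fin 64) : ℕ) * t + u) (by rwa [hc])
      rw [hc] at this
      exact this
    · have := hG.2 (8 * (i + u)) (8 * (j + t))
      convert this using 3 with n
      ring
    · have := hper n (8 * (w + (n : ℕ) * t + u))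
      rw [← this]
      congr 1
      rw [hQ]; push_cast; ring

/-- A seeded last-digit Sudoku has no periodic row functions. -/
theorem sudoku_not_periodic (c c' c'' : ℤ → ZMod 8) (G : Fin 64 → ℤ → ZMod 8)
    (hsum : ∀ i j, c i + c' j = c'' (i + j))
    (hflip : ∀ i, (c (i + 1)).val % 2 ≠ (c i).val % 2)
    (hseed : ∀ (n : Fin 64) (i j : ℤ), c i + (n : ℕ) * c' j ≠ 0 →
      G n (i + (n : ℕ) * j) = c i + (n : ℕ) * c' j)
    (hR : ∀ i j : ℤ, LineRel fun n => G n (i + (n : ℕ) * j))
    (P : ℕ) (hP : 0 < P) (hper : ∀ n m, G n (m + P) = G n m) : False := by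
  set α := c 1 - c 0 with hα
  have hstep : ∀ i, c (i + 1) = c i + α := by
    intro i
    have h1 := hsum i 1
    have h2 := hsum (i + 1) 0
    have h3 := hsum 0 1
    have h4 := hsum 1 0
    rw [add_zero] at h2 h4
    rw [zero_add] at h3
    linear_combination h2 - h1 - h4 + h3
  have hc : ∀ i : ℤ, c i = α * i + c 0 := by
    intro i
    induction i using Int.induction_on with
    | zero => simp
    | succ k ih => rw [hstep, ih]; push_cast; ring
    | pred k ih =>
      have := hstep (-(k : ℤ) - 1)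
      rw [sub_add_cancel, ih] at this
      push_cast at this ⊢
      linear_combination -this
  have hc' : ∀ j : ℤ, c' j = α * j + c' 0 := by
    intro j
    have h1 := hsum 0 j
    have h2 := hsum j 0
    rw [zero_add] at h1
    rw [add_zero] at h2
    linear_combination h1 - h2 + hc j
  have hodd : α * α = 1 := by
    have key : ∀ a b : ZMod 8, (b + a).val % 2 ≠ b.val % 2 → a * a = 1 := by decide
    refine key α (c 0) ?_
    rw [← hstep]
    exact hflip 0
  set u : ℤ := -(((α * c 0).val : ℕ) : ℤ) with hu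
  set t : ℤ := -(((α * c' 0).val : ℕ) : ℤ) with ht
  refine seeded_not_periodic P (fun n m => α * G n (m + u + (n : ℕ) * t))
    ⟨fun n m hm => ?_, fun i j => ?_⟩ hP (fun n m => ?_)
  · have hval : c (m + u + (n : ℕ) * t) + (n : ℕ) * c' 0 = α * m := by
      rw [hc, hu, ht]
      push_cast [natVal_cast]
      simp only [ZMod.natCast_zmod_val]
      linear_combination (-(c 0) - (n : ℕ) * c' 0) * hodd
    have hne : α * (m : ZMod 8) ≠ 0 := unit_mul_ne α _ hodd hm
    have := hseed n (m + u + (n : ℕ) * t) 0 (by rwa [hval])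
    rw [mul_zero, add_zero, hval] at this
    simp only
    rw [this, ← mul_assoc, hodd, one_mul]
  · obtain ⟨μ, hμ, a, b, hab⟩ := hR (i + u) (j + t)
    refine ⟨α * μ, (IsUnit.of_mul_eq_one α hodd).mul hμ, a, b, fun n => ?_⟩
    have := hab n
    simp only at this ⊢
    rw [show i + (n : ℕ) * j + u + (n : ℕ) * t = i + u + (n : ℕ) * (j + t) by ring, this]
    ring
  · show α * G n (m + (P : ℤ) + u + (n : ℕ) * t) = _
    rw [show m + (P : ℤ) + u + (n : ℕ) * t = m + u + (n : ℕ) * t + P by ring, hper]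

/-- The last-digit solution satisfies the relations. -/
theorem lastDigit_solution (n : Fin 64) (i j : ℤ) :
    ((i : ZMod 8) + (n : ℕ) * (j : ZMod 8) ≠ 0 →
      lastDigit (i + (n : ℕ) * j) = (i : ZMod 8) + (n : ℕ) * (j : ZMod 8)) ∧
    LineRel fun m => lastDigit (i + (m : ℕ) * j) := by
  refine ⟨fun h => ?_, 1, isUnit_one, j, i, fun m => ?_⟩
  · rw [lastDigit_of_ne (by push_cast; exact h)]
    push_cast; ring
  · simp only [one_mul]
    congr 1
    ring

end Vale.Agent.P043.Aperiodic
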