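import Vale.Agent.P043.Aperiodic.Slices
import Vale.Agent.P043.Aperiodic.Clock
import Vale.Agent.P043.Aperiodic.Sudoku
import Vale.Agent.P043.Aperiodic.Lift
import Vale.Agent.P043.Aperiodic.Quotient

/-! The system of tiles in `ℤ² × H` and the aperiodic tile of `ℤ⁴`. -/

namespace Vale.Agent.P043.Aperiodic

open Vale.Agent.P043

section Fibres

variable {H : Type*} [AddCommGroup H]

/-- A tile in one fibre. -/
def fibre (E : Finset H) : Finset ((ℤ × ℤ) × H) :=
  E.map ⟨fun h => ((0, 0), h), fun _ _ h => congrArg Prod.snd h⟩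

variable [DecidableEq H]

/-- A tile in the fibres `0` and `v`. -/
def twoFibre (v : ℤ × ℤ) (E E' : Finset H) : Finset ((ℤ × ℤ) × H) :=
  fibre E ∪ E'.map ⟨fun h => (v, h), fun _ _ h => congrArg Prod.snd h⟩

/-- The fibre of `A` over `x`. -/
def fib (A : Set ((ℤ × ℤ) × H)) (x : ℤ × ℤ) : Set H := {h | (x, h) ∈ A}

omit [DecidableEq H] in
lemma mem_fibre {E : Finset H} {f : (ℤ × ℤ) × H} : f ∈ fibre E ↔ f.1 = 0 ∧ f.2 ∈ E := by
  obtain ⟨a, h⟩ := f
  simp only [fibre, Finset.mem_map, Function.Embedding.coeFn_mk]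
  constructor
  · rintro ⟨g, hg, e⟩
    injection e with e1 e2
    exact ⟨e1.symm, e2 ▸ hg⟩
  · rintro ⟨rfl, hg⟩
    exact ⟨h, hg, rfl⟩

lemma mem_twoFibre {v : ℤ × ℤ} {E E' : Finset H} {f : (ℤ × ℤ) × H} :
    f ∈ twoFibre v E E' ↔ (f.1 = 0 ∧ f.2 ∈ E) ∨ (f.1 = v ∧ f.2 ∈ E') := by
  obtain ⟨a, h⟩ := f
  simp only [twoFibre, Finset.mem_union, mem_fibre, Finset.mem_map, Function.Embedding.coeFn_mk]
  constructor
  · rintro (h1 | ⟨g, hg, e⟩)
    · exact Or.inl h1
    · injection e with e1 e2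
      exact Or.inr ⟨e1.symm, e2 ▸ hg⟩
  · rintro (h1 | ⟨rfl, hg⟩)
    · exact Or.inl h1
    · exact Or.inr ⟨h, hg, rfl⟩

omit [DecidableEq H] in
lemma card_fibre (E : Finset H) : (fibre E).card = E.card := by simp [fibre]

lemma card_twoFibre {v : ℤ × ℤ} (hv : v ≠ 0) (E E' : Finset H) :
    (twoFibre v E E').card = E.card + E'.card := by
  rw [twoFibre, Finset.card_union_of_disjoint, card_fibre, Finset.card_map]
  rw [Finset.disjoint_left]
  intro f hf hf'
  rw [mem_fibre] at hf
  simp only [Finset.mem_map, Function.Embedding.coeFn_mk] at hf'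
  obtain ⟨h, -, rfl⟩ := hf'
  exact hv hf.1

omit [DecidableEq H] in
lemma tiling_fibre (E : Finset H) (A : Set ((ℤ × ℤ) × H)) :
    Tiling (fibre E) A ↔ ∀ x, Tiling E (fib A x) := by
  constructor
  · intro hA x h
    obtain ⟨f, ⟨hf, hfA⟩, huniq⟩ := hA (x, h)
    rw [mem_fibre] at hf
    refine ⟨f.2, ⟨hf.2, ?_⟩, ?_⟩
    · have : (x, h) - f = (x, h - f.2) := Prod.ext (by simp [hf.1]) rfl
      rw [this] at hfA
      exact hfA
    · intro g hg
      have : ((0 : ℤ × ℤ), g) = f := by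
        refine huniq _ ⟨mem_fibre.2 ⟨rfl, hg.1⟩, ?_⟩
        have : (x, h) - ((0 : ℤ × ℤ), g) = (x, h - g) := Prod.ext (by simp) rfl
        rw [this]
        exact hg.2
      rw [← this]
  · intro hA q
    obtain ⟨g, ⟨hg, hgA⟩, huniq⟩ := hA q.1 q.2
    refine ⟨(0, g), ⟨mem_fibre.2 ⟨rfl, hg⟩, ?_⟩, ?_⟩
    · have : q - ((0 : ℤ × ℤ), g) = (q.1, q.2 - g) := Prod.ext (by simp) rfl
      rw [this]
      exact hgA
    · rintro ⟨a, g'⟩ ⟨hf, hfA⟩
      obtain ⟨ha, hg'⟩ := mem_fibre.1 hf
      dsimp only at ha hg'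
      subst ha
      have : q - ((0 : ℤ × ℤ), g') = (q.1, q.2 - g') := Prod.ext (by simp) rfl
      rw [this] at hfA
      rw [huniq g' ⟨hg', hfA⟩]

lemma tiling_twoFibre {v : ℤ × ℤ} (hv : v ≠ 0) (E E' : Finset H) (A : Set ((ℤ × ℤ) × H)) :
    Tiling (twoFibre v E E') A ↔ ∀ x, Tiling2 E E' (fib A x) (fib A (x - v)) := by
  have hsub : ∀ (a : ℤ × ℤ) (q : (ℤ × ℤ) × H) (g : H), q - (a, g) = (q.1 - a, q.2 - g) :=
    fun a q g => rfl
  constructor
  · intro hA x h
    obtain ⟨f, ⟨hf, hfA⟩, huniq⟩ := hA (x, h)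
    obtain ⟨a, g⟩ := f
    rw [hsub] at hfA
    refine ⟨(g, decide (a = v)), ?_, ?_⟩
    · rcases mem_twoFibre.1 hf with ⟨ha, hg⟩ | ⟨ha, hg⟩ <;> dsimp only at ha hg <;> subst ha
      · left
        refine ⟨decide_eq_false (Ne.symm hv), hg, ?_⟩
        simpa [fib] using hfA
      · right
        exact ⟨decide_eq_true rfl, hg, hfA⟩
    · rintro ⟨g', s⟩ (⟨hs, hg', hA'⟩ | ⟨hs, hg', hA'⟩) <;> dsimp only at hs hg' hA' <;> subst hs
      · have := huniq ((0 : ℤ × ℤ), g') ⟨mem_twoFibre.2 (Or.inl ⟨rfl, hg'⟩), by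
          rw [hsub]; simpa [fib] using hA'⟩
        simp only [Prod.ext_iff] at this
        obtain ⟨rfl, rfl⟩ : (0 : ℤ × ℤ) = a ∧ g' = g := ⟨Prod.ext this.1.1 this.1.2, this.2⟩
        simp [Ne.symm hv]
      · have := huniq (v, g') ⟨mem_twoFibre.2 (Or.inr ⟨rfl, hg'⟩), by rw [hsub]; exact hA'⟩
        obtain ⟨rfl, rfl⟩ : v = a ∧ g' = g :=
          ⟨congrArg Prod.fst this, congrArg Prod.snd this⟩
        simp
  · intro hA q
    obtain ⟨⟨g, s⟩, hgs, huniq⟩ := hA q.1 q.2
    refine ⟨(if s then v else 0, g), ⟨?_, ?_⟩, ?_⟩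
    · rw [mem_twoFibre]
      rcases hgs with ⟨hs, hg, -⟩ | ⟨hs, hg, -⟩ <;> dsimp only at hs hg <;> subst hs <;>
        simp [hg]
    · rw [hsub]
      rcases hgs with ⟨hs, -, hA'⟩ | ⟨hs, -, hA'⟩ <;> dsimp only at hs hA' <;> subst hs
      · simpa [fib] using hA'
      · simpa [fib] using hA'
    · rintro ⟨a, g'⟩ ⟨hf, hfA⟩
      rw [hsub] at hfA
      rcases mem_twoFibre.1 hf with ⟨ha, hg'⟩ | ⟨ha, hg'⟩ <;> dsimp only at ha hg' <;> subst ha
      · have := huniq (g', false) (Or.inl ⟨rfl, hg', by simpa [fib] using hfA⟩)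
        simp only [Prod.mk.injEq] at this
        simp [← this.1, ← this.2]
      · have := huniq (g', true) (Or.inr ⟨rfl, hg', hfA⟩)
        simp only [Prod.mk.injEq] at this
        simp [← this.1, ← this.2]

end Fibres

lemma eq_add_smul {α : Type*} {f : ℤ × ℤ → α} {v : ℤ × ℤ} (h : ∀ x, f x = f (x - v)) (t : ℤ) :
    ∀ x, f (x + t • v) = f x := by
  induction t using Int.induction_on with
  | zero => simp
  | succ k ih =>
    intro x
    rw [h, show x + ((k : ℤ) + 1) • v - v = x + (k : ℤ) • v by module]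
    exact ih x
  | pred k ih =>
    intro x
    rw [← ih x, h (x + (-(k : ℤ)) • v),
      show x + (-(k : ℤ)) • v - v = x + (-(k : ℤ) - 1) • v by module]

section Bits

/-- The primes of the types. -/
noncomputable def prm (i : Fin 201) : ℕ := Nat.nth Nat.Prime ((i : ℕ) + 1)

lemma prm_prime (i : Fin 201) : (prm i).Prime := Nat.prime_nth_prime _

instance (i : Fin 201) : NeZero (prm i) := ⟨(prm_prime i).ne_zero⟩

lemma prm_injective : Function.Injective prm := fun i j h =>
  Fin.ext (Nat.succ_injective (Nat.nth_injective Nat.infinite_setOf_prime h))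

lemma prm_ne_two (i : Fin 201) : prm i ≠ 2 := by
  intro h
  rw [prm, ← Nat.nth_prime_zero_eq_two] at h
  exact Nat.succ_ne_zero _ (Nat.nth_injective Nat.infinite_setOf_prime h)

/-- The type carrying bit `j` of block `k`. -/
def tp (k : Fin 67) (j : Fin 3) : Fin 201 := ⟨3 * k + j, by omega⟩

/-- The value of block `k`. -/
def blockVal (σ : Fin 201 → Bool) (k : Fin 67) : ZMod 8 :=
  ((∑ j : Fin 3, if σ (tp k j) then 2 ^ (j : ℕ) else 0 : ℕ) : ZMod 8)

lemma blockVal_mod_two (σ : Fin 201 → Bool) (k : Fin 67) :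
    (blockVal σ k).val % 2 = if σ (tp k 0) then 1 else 0 := by
  simp only [blockVal, Fin.sum_univ_three]
  cases σ (tp k 0) <;> cases σ (tp k 1) <;> cases σ (tp k 2) <;> decide

/-- The bits of given block values. -/
def bitsOf (val : Fin 67 → ZMod 8) (i : Fin 201) : Bool :=
  (val ⟨(i : ℕ) / 3, by omega⟩).val.testBit ((i : ℕ) % 3)

lemma blockVal_bitsOf (val : Fin 67 → ZMod 8) (k : Fin 67) :
    blockVal (bitsOf val) k = val k := by
  have key : ∀ x : ZMod 8,
      ((∑ j : Fin 3, if x.val.testBit (j : ℕ) then 2 ^ (j : ℕ) else 0 : ℕ) : ZMod 8) = x := by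
    decide
  refine Eq.trans ?_ (key (val k))
  simp only [blockVal]
  congr 1
  refine Finset.sum_congr rfl fun j _ => ?_
  have h1 : (⟨((tp k j : Fin 201) : ℕ) / 3, by omega⟩ : Fin 67) = k := by
    apply Fin.ext
    simp only [tp]
    omega
  have h2 : ((tp k j : Fin 201) : ℕ) % 3 = (j : ℕ) := by
    simp only [tp]
    omega
  simp only [bitsOf, h1, h2]

/-- The relation among the bits at one point. -/
def Rel (σ : Fin 201 → Bool) : Prop :=
  blockVal σ 0 + blockVal σ 1 = blockVal σ 2 ∧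
    (∀ n : Fin 64, blockVal σ 0 + (n : ℕ) * blockVal σ 1 ≠ 0 →
      blockVal σ (Fin.natAdd 3 n) = blockVal σ 0 + (n : ℕ) * blockVal σ 1) ∧
    LineRel fun n => blockVal σ (Fin.natAdd 3 n)

/-- The direction along which a block is constant. -/
def dirBlock (k : Fin 67) : ℤ × ℤ :=
  if (k : ℕ) = 0 then (0, 1) else if (k : ℕ) = 1 then (1, 0) else if (k : ℕ) = 2 then (1, -1)
  else (((k : ℕ) - 3 : ℕ), -1)

lemma dirBlock_ne_zero (k : Fin 67) : dirBlock k ≠ 0 := by
  unfold dirBlock
  split_ifs <;> simp [Prod.ext_iff]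

/-- The direction along which a type is constant. -/
def dirType (i : Fin 201) : ℤ × ℤ := dirBlock ⟨(i : ℕ) / 3, by omega⟩

lemma dirType_tp (k : Fin 67) (j : Fin 3) : dirType (tp k j) = dirBlock k := by
  unfold dirType
  congr 1
  apply Fin.ext
  simp only [tp]
  omega

end Bits

lemma slice_inj {n : ℕ} {p : Fin n → ℕ} (hp : ∀ i, (p i).Prime) {z z' : Gad × Gad}
    {b b' : Col p} {σ σ' : Fin n → Bool} (h : slice z b σ = slice z' b' σ') : σ = σ' := by
  funext i
  have hb : b i = b' i := by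
    have hmem : ((z.1, 0, b) : Hgrp p) ∈ slice z b σ := ⟨Or.inl rfl, fun i => by simp⟩
    rw [h] at hmem
    simpa using hmem.2 i
  have hmem : ((z.1, Pi.single i 1,
      fun l => b l + if σ l then (Pi.single i 1 : Col p) l else 0) : Hgrp p) ∈ slice z b σ :=
    ⟨Or.inl rfl, fun l => rfl⟩
  rw [h] at hmem
  have heq := hmem.2 i
  haveI : Fact (p i).Prime := ⟨hp i⟩
  simp [← hb] at heq
  revert heq
  cases σ i <;> cases σ' i <;> simp

/-- An aperiodic tile of `ℤ⁴`. -/
theorem exists_aperiodic_tile_four :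
    ∃ F : Finset (Grid 4), (∃ A, Tiles F A) ∧ ∀ A, Tiles F A → ¬ IsPeriodic A := by
  classical
  have hn : 2 ≤ 201 := by norm_num
  obtain ⟨S, hScard, hS⟩ := slice_system prm prm_prime
  choose forbid hforbidCard hforbid using forbid_tile prm hn prm_prime
  choose link hlinkCard hlink using link_tile prm prm_prime (tp 0 0)
  choose cE cE' hcCard hconst using const_tile prm prm_prime
  set c := (baseTile prm).card with hc
  have hflipv : ((-1, 0) : ℤ × ℤ) ≠ 0 := by simp
  -- the system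
  let ι := ({E : Finset (Hgrp prm) // E ∈ S} ⊕ {v : Fin 201 → Bool // ¬ Rel v}) ⊕
    (Bool ⊕ (Fin 201 ⊕ Unit))
  let F : ι → Finset ((ℤ × ℤ) × Hgrp prm) := Sum.elim
    (Sum.elim (fun E => fibre E.1) (fun v => fibre (forbid v.1)))
    (Sum.elim (fun β => fibre (link β (!β)))
      (Sum.elim (fun i => twoFibre (dirType i) (cE i) (cE' i))
        (fun _ => twoFibre (-1, 0) (extend prm clockE) (extend prm clockE'))))
  have hFc : ∀ i, (F i).card = c := by
    rintro ((E | v) | β | i | u)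
    · exact (card_fibre _).trans (hScard _ E.2)
    · exact (card_fibre _).trans (hforbidCard _)
    · exact (card_fibre _).trans (hlinkCard _ _)
    · exact (card_twoFibre (dirBlock_ne_zero _) _ _).trans (hcCard i)
    · exact (card_twoFibre hflipv _ _).trans (clock_card prm)
  -- the finite group is a quotient of `ℤ²`
  obtain ⟨N, hN, φ, hφ, hker⟩ := exists_quotient_map prm prm_prime prm_injective prm_ne_two
  refine exists_aperiodic_tile_of_quotient N hN φ hφ hker F (Sum.inr (Sum.inr (Sum.inr ())))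
    ?_ (fun i => by rw [hFc, hFc]) ?_ ?_
  · rw [← Finset.card_pos, hFc, hc, Finset.card_pos]
    exact ⟨((0, 0), 0, 0), by simp [baseTile, evenG]⟩
  · -- a solution
    let val : ℤ × ℤ → Fin 67 → ZMod 8 := fun x k =>
      if (k : ℕ) = 0 then (x.1 : ZMod 8) else if (k : ℕ) = 1 then (x.2 : ZMod 8)
      else if (k : ℕ) = 2 then ((x.1 + x.2 : ℤ) : ZMod 8)
      else lastDigit (x.1 + (((k : ℕ) - 3 : ℕ) : ℤ) * x.2)
    let z : ℤ × ℤ → Gad × Gad := fun x => clockSol (x.1 : ZMod 4)
    let σ : ℤ × ℤ → Fin 201 → Bool := fun x => bitsOf (val x)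
    let A : Set ((ℤ × ℤ) × Hgrp prm) := {q | q.2 ∈ slice (z q.1) 0 (σ q.1)}
    have hgood : ∀ x, Good (z x) ∧ oddD (z x) := fun x =>
      ⟨(clock_sol prm _ 0 0 (σ x) (σ x)).1, (clock_sol prm _ 0 0 (σ x) (σ x)).2.1⟩
    have hfib : ∀ x, fib A x = slice (z x) 0 (σ x) := fun x => rfl
    have hlast : ∀ n : Fin 64, ∀ x, val x (Fin.natAdd 3 n) = lastDigit (x.1 + (n : ℕ) * x.2) := by
      intro n x
      simp [val, Fin.natAdd]
      rw [if_neg (by omega), if_neg (by omega)]
    have hrel : ∀ x, Rel (σ x) := by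
      intro x
      refine ⟨?_, ?_, ?_⟩
      · simp [σ, blockVal_bitsOf, val]
      · intro n h
        simp only [σ, blockVal_bitsOf, hlast] at h ⊢
        have hs := (lastDigit_solution n x.1 x.2).1
        simp [val] at h ⊢
        exact hs h
      · simp only [σ, blockVal_bitsOf, hlast]
        exact (lastDigit_solution 0 x.1 x.2).2
    refine ⟨A, ?_⟩
    rintro ((E | v) | β | i | u)
    · refine (tiling_fibre _ A).2 fun x => ?_
      rw [hfib]
      exact (hS _).2 ⟨_, _, _, (hgood x).1, rfl⟩ E.1 E.2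
    · refine (tiling_fibre _ A).2 fun x => ?_
      rw [hfib]
      exact (hforbid v.1 _ _ _ (hgood x).1).2 fun h => v.2 (h ▸ hrel x)
    · refine (tiling_fibre _ A).2 fun x => ?_
      rw [hfib]
      refine (hlink β (!β) _ _ _ (hgood x).1 (hgood x).2).2 ?_
      rintro ⟨h1, h2⟩
      have hb := (clock_sol prm (x.1 : ZMod 4) 0 0 (σ x) (σ x)).2.2.1
      have key : σ x (tp 0 0) = beta (z x) := by
        rw [hb]
        simp only [σ, bitsOf, tp, val]
        have h48 : ∀ t : ZMod 8, t.val.testBit 0 =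
            decide ((t.val : ZMod 4) = 1 ∨ (t.val : ZMod 4) = 3) := by decide
        have hcast : (((x.1 : ZMod 8)).val : ZMod 4) = (x.1 : ZMod 4) := by
          have h8 : ((((x.1 : ZMod 8)).val : ℤ)) = x.1 % (8 : ℤ) := by
            simpa using ZMod.val_intCast (n := 8) x.1
          rw [← Int.cast_natCast, h8, ZMod.intCast_eq_intCast_iff']
          omega
        simpa [hcast] using h48 (x.1 : ZMod 8)
      rw [key, h1] at h2
      simp at h2
    · refine (tiling_twoFibre (dirBlock_ne_zero _) _ _ A).2 fun x => ?_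
      rw [hfib, hfib]
      refine (hconst i _ _ _ _ _ _ (hgood x).1 (hgood _).1).2 ⟨rfl, ?_⟩
      have hval : val x ⟨(i : ℕ) / 3, by omega⟩ =
          val (x - dirType i) ⟨(i : ℕ) / 3, by omega⟩ := by
        simp only [val, dirType, dirBlock]
        split_ifs with h0 h1 h2
        · simp
        · simp
        · simp
        · congr 1
          simp only [Prod.fst_sub, Prod.snd_sub]
          ring
      simp only [σ, bitsOf, hval]
      rfl
    · refine (tiling_twoFibre hflipv _ _ A).2 fun x => ?_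
      rw [hfib, hfib]
      have h1 : z (x - (-1, 0)) = clockSol ((x.1 : ZMod 4) + 1) := by simp [z]
      rw [h1]
      exact (clock_sol prm _ _ _ _ _).2.2.2
  · -- no periodic solution
    intro A hA P hP hper
    have hsl : ∀ x, ∃ z b σ, Good z ∧ fib A x = slice z b σ := fun x =>
      (hS _).1 fun E hE => (tiling_fibre _ A).1 (hA (Sum.inl (Sum.inl ⟨E, hE⟩))) x
    choose z b σ hz hfib using hsl
    have hclock : ∀ x, oddD (z x) ∧ beta (z (x - (-1, 0))) = !beta (z x) := by
      intro x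
      have h := (tiling_twoFibre hflipv _ _ A).1 (hA (Sum.inr (Sum.inr (Sum.inr ())))) x
      rw [hfib, hfib] at h
      exact ⟨(clock_flip prm (hz _) (hz _) h).1, (clock_flip prm (hz _) (hz _) h).2.2⟩
    have hlink' : ∀ x, σ x (tp 0 0) = beta (z x) := by
      intro x
      have h := (tiling_fibre _ A).1 (hA (Sum.inr (Sum.inl (beta (z x))))) x
      rw [hfib] at h
      have := (hlink _ _ _ _ _ (hz _) (hclock x).1).1 h
      simp only [true_and] at this
      simpa using this
    have hrel : ∀ x, Rel (σ x) := by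
      intro x
      by_contra hbad
      have h := (tiling_fibre _ A).1 (hA (Sum.inl (Sum.inr ⟨σ x, hbad⟩))) x
      rw [hfib] at h
      exact (hforbid _ _ _ _ (hz _)).1 h rfl
    have hline : ∀ (k : Fin 67) (t : ℤ) x,
        blockVal (σ (x + t • dirBlock k)) k = blockVal (σ x) k := by
      intro k t x
      refine eq_add_smul (f := fun x => blockVal (σ x) k) (fun y => ?_) t x
      have hj : ∀ j, σ y (tp k j) = σ (y - dirBlock k) (tp k j) := by
        intro j
        have h := (tiling_twoFibre (dirBlock_ne_zero _) _ _ A).1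
          (hA (Sum.inr (Sum.inr (Sum.inl (tp k j))))) y
        rw [hfib, hfib] at h
        have h' := ((hconst (tp k j) _ _ _ _ _ _ (hz _) (hz _)).1 h).2
        rw [← dirType_tp k j]
        exact h'
      simp only [blockVal, hj]
    have hσper : ∀ x v : ℤ × ℤ, σ (x + (P : ℤ) • v) = σ x := by
      intro x v
      refine slice_inj prm_prime (z := z (x + (P : ℤ) • v)) (b := b (x + (P : ℤ) • v)) (z' := z x) (b' := b x) ?_
      rw [← hfib, ← hfib]
      exact Set.ext fun h => hper x v h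
    have hdir : ∀ n : Fin 64, dirBlock (Fin.natAdd 3 n) = (((n : ℕ) : ℤ), -1) := by
      intro n
      simp [dirBlock, Fin.natAdd]
      rw [if_neg (by omega), if_neg (by omega)]
    have e0 : ∀ i j : ℤ, blockVal (σ (i, j)) 0 = blockVal (σ (i, 0)) 0 := by
      intro i j
      rw [← hline 0 j (i, 0)]
      congr 2
      simp [dirBlock]
    have e1 : ∀ i j : ℤ, blockVal (σ (i, j)) 1 = blockVal (σ (0, j)) 1 := by
      intro i j
      rw [← hline 1 i (0, j)]
      congr 2
      simp [dirBlock]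
    have e2 : ∀ i j : ℤ, blockVal (σ (i, j)) 2 = blockVal (σ (i + j, 0)) 2 := by
      intro i j
      rw [← hline 2 (-j) (i + j, 0)]
      congr 2
      simp [dirBlock]
    have eG : ∀ (n : Fin 64) (i j : ℤ), blockVal (σ (i, j)) (Fin.natAdd 3 n) =
        blockVal (σ (i + (n : ℕ) * j, 0)) (Fin.natAdd 3 n) := by
      intro n i j
      rw [← hline (Fin.natAdd 3 n) (-j) (i + (n : ℕ) * j, 0)]
      congr 2
      rw [hdir]
      refine Prod.ext ?_ ?_ <;> simp
      ring
    refine sudoku_not_periodic (fun i => blockVal (σ (i, 0)) 0) (fun j => blockVal (σ (0, j)) 1)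
      (fun m => blockVal (σ (m, 0)) 2) (fun n m => blockVal (σ (m, 0)) (Fin.natAdd 3 n))
      ?_ ?_ ?_ ?_ P hP ?_
    · intro i j
      rw [← e0 i j, ← e1 i j, ← e2 i j]
      exact (hrel _).1
    · intro i
      rw [blockVal_mod_two, blockVal_mod_two, hlink', hlink']
      have h := (hclock (i, 0)).2
      simp only [Prod.mk_sub_mk, sub_neg_eq_add, sub_zero] at h
      rw [h]
      cases beta (z (i, 0)) <;> simp
    · intro n i j h
      rw [← eG, ← e0 i j, ← e1 i j] at *
      exact (hrel _).2.1 n h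
    · intro i j
      simpa only [← eG] using (hrel (i, j)).2.2
    · intro n m
      have h := hσper (m, 0) (1, 0)
      simp only [Prod.smul_mk, smul_eq_mul, mul_one, mul_zero, Prod.mk_add_mk, add_zero] at h
      simp only [h]

end Vale.Agent.P043.Aperiodic
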